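import Vale.Agent.P108.Bdl.B1
import Mathlib.Analysis.SpecialFunctions.Trigonometric.InverseDeriv
import Mathlib.MeasureTheory.Measure.Haar.OfBasis
import Mathlib.MeasureTheory.Measure.Haar.Unique

/-!
# P108: one-time laws and generic thresholds

* `vol_near`: the law of `a k x` for `x` uniform has density `≤ 1 / k` on `[-k, k]`
  (up to the factor in the statement);
* `exists_generic`: Fubini choice of a generic threshold parameter, simultaneously for countably
  many decisions.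
-/

open MeasureTheory Filter Set Topology
open scoped ENNReal

namespace Vale.Agent.P108.H954

open Vale.Agent.P108.FT

/-! ### One-time law -/

lemma arccos_lip {x y : ℝ} (hx : x ∈ Icc (-(3 / 4) : ℝ) (3 / 4)) (hy : y ∈ Icc (-(3 / 4) : ℝ) (3 / 4)) :
    |Real.arccos y - Real.arccos x| ≤ 2 * |y - x| := by
  have hc : Convex ℝ (Icc (-(3 / 4) : ℝ) (3 / 4)) := convex_Icc _ _
  have h := hc.norm_image_sub_le_of_norm_hasDerivWithin_le (f := Real.arccos)
    (f' := fun t => -(1 / √(1 - t ^ 2))) (C := 2) (x := x) (y := y) ?_ ?_ hx hy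
  · simpa [Real.norm_eq_abs] using h
  · intro t ht
    have h1 : t ≠ -1 := by rintro rfl; norm_num at ht
    have h2 : t ≠ 1 := by rintro rfl; norm_num at ht
    exact (Real.hasDerivAt_arccos h1 h2).hasDerivWithinAt
  · intro t ht
    rw [norm_neg, Real.norm_eq_abs, abs_of_nonneg (by positivity)]
    have h3 : (1 / 4 : ℝ) ≤ 1 - t ^ 2 := by nlinarith [ht.1, ht.2]
    have h4 : (1 / 2 : ℝ) ≤ √(1 - t ^ 2) := by
      apply Real.le_sqrt_of_sq_le
      linarith
    rw [div_le_iff₀ (by linarith)]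
    linarith

/-- the half circle part of the law of the cosine -/
lemma vol_half {c d : ℝ} (hc : |c| ≤ 1 / 2) (hd0 : 0 ≤ d) (hd : d ≤ 1 / 4) :
    volume {x : ℝ | x ∈ Icc (0 : ℝ) (1 / 2) ∧ |Real.cos (2 * Real.pi * x) - c| ≤ d}
      ≤ ENNReal.ofReal (2 * d / Real.pi) := by
  have hpi := Real.pi_pos
  obtain ⟨hc1, hc2⟩ := abs_le.1 hc
  have hsub : {x : ℝ | x ∈ Icc (0 : ℝ) (1 / 2) ∧ |Real.cos (2 * Real.pi * x) - c| ≤ d} ⊆
      Icc (Real.arccos (c + d) / (2 * Real.pi)) (Real.arccos (c - d) / (2 * Real.pi)) := by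
    rintro x ⟨⟨hx0, hx1⟩, hx⟩
    obtain ⟨h1, h2⟩ := abs_le.1 hx
    have hx2 : Real.arccos (Real.cos (2 * Real.pi * x)) = 2 * Real.pi * x := by
      apply Real.arccos_cos
      · positivity
      · nlinarith
    have h3 : Real.arccos (c + d) ≤ 2 * Real.pi * x := by
      rw [← hx2]
      exact Real.arccos_le_arccos (by linarith)
    have h4 : 2 * Real.pi * x ≤ Real.arccos (c - d) := by
      rw [← hx2]
      exact Real.arccos_le_arccos (by linarith)
    constructor
    · rw [div_le_iff₀ (by positivity)]; linarith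
    · rw [le_div_iff₀ (by positivity)]; linarith
  refine (measure_mono hsub).trans ?_
  rw [Real.volume_Icc]
  apply ENNReal.ofReal_le_ofReal
  have h5 := arccos_lip (x := c + d) (y := c - d) ⟨by linarith, by linarith⟩ ⟨by linarith, by linarith⟩
  have h6 : |c - d - (c + d)| = 2 * d := by
    rw [show c - d - (c + d) = -(2 * d) by ring, abs_neg, abs_of_nonneg (by linarith)]
  rw [h6] at h5
  have h7 : Real.arccos (c - d) - Real.arccos (c + d) ≤ 4 * d := by
    linarith [le_abs_self (Real.arccos (c - d) - Real.arccos (c + d))]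
  rw [← sub_div, div_le_div_iff₀ (by positivity) hpi]
  nlinarith

lemma vol_cos {c d : ℝ} (hc : |c| ≤ 1 / 2) (hd0 : 0 ≤ d) :
    volume {x : ℝ | x ∈ Ico (0 : ℝ) 1 ∧ |Real.cos (2 * Real.pi * x) - c| ≤ d}
      ≤ ENNReal.ofReal (4 * d) := by
  rcases le_or_gt d (1 / 4) with hd | hd
  · set S : Set ℝ := {x : ℝ | x ∈ Icc (0 : ℝ) (1 / 2) ∧ |Real.cos (2 * Real.pi * x) - c| ≤ d} with hS
    have hsub : {x : ℝ | x ∈ Ico (0 : ℝ) 1 ∧ |Real.cos (2 * Real.pi * x) - c| ≤ d} ⊆
        S ∪ (fun x => 1 - x) ⁻¹' S := by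
      rintro x ⟨⟨hx0, hx1⟩, hx⟩
      rcases le_or_gt x (1 / 2) with h | h
      · exact Or.inl ⟨⟨hx0, h⟩, hx⟩
      · refine Or.inr ⟨⟨by linarith, by linarith⟩, ?_⟩
        have : Real.cos (2 * Real.pi * (1 - x)) = Real.cos (2 * Real.pi * x) := by
          rw [show 2 * Real.pi * (1 - x) = 2 * Real.pi - 2 * Real.pi * x by ring,
            Real.cos_two_pi_sub]
        rw [this]; exact hx
    have hmp : MeasurePreserving (fun x : ℝ => 1 - x) volume volume :=
      Measure.measurePreserving_sub_left (volume : Measure ℝ) (1 : ℝ)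
    have hSm : MeasurableSet S := by
      have h1 : Measurable (fun x : ℝ => |Real.cos (2 * Real.pi * x) - c|) := by fun_prop
      exact measurableSet_Icc.inter (measurableSet_le h1 measurable_const)
    calc volume {x : ℝ | x ∈ Ico (0 : ℝ) 1 ∧ |Real.cos (2 * Real.pi * x) - c| ≤ d}
        ≤ volume (S ∪ (fun x => 1 - x) ⁻¹' S) := measure_mono hsub
      _ ≤ volume S + volume ((fun x => 1 - x) ⁻¹' S) := measure_union_le _ _
      _ = volume S + volume S := by rw [hmp.measure_preimage hSm.nullMeasurableSet]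
      _ ≤ ENNReal.ofReal (2 * d / Real.pi) + ENNReal.ofReal (2 * d / Real.pi) :=
          add_le_add (vol_half hc hd0 hd) (vol_half hc hd0 hd)
      _ = ENNReal.ofReal (2 * d / Real.pi + 2 * d / Real.pi) := by
          rw [ENNReal.ofReal_add (by positivity) (by positivity)]
      _ ≤ ENNReal.ofReal (4 * d) := by
          apply ENNReal.ofReal_le_ofReal
          have : 2 * d / Real.pi ≤ 2 * d := by
            apply div_le_self (by linarith)
            linarith [Real.pi_gt_three]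
          linarith
  · calc volume {x : ℝ | x ∈ Ico (0 : ℝ) 1 ∧ |Real.cos (2 * Real.pi * x) - c| ≤ d}
        ≤ volume (Ico (0 : ℝ) 1) := measure_mono fun x hx => hx.1
      _ = ENNReal.ofReal 1 := by rw [Real.volume_Ico]; norm_num
      _ ≤ ENNReal.ofReal (4 * d) := ENNReal.ofReal_le_ofReal (by linarith)

/-- **One-time law.** For `k ≥ 1`, the law of `a k x`, `x` uniform on the circle, gives mass at
most `δ / k` to `[v - δ, v + δ]`, for every `|v| ≤ k`. -/
theorem vol_near {k v δ : ℝ} (hk : 1 ≤ k) (hv : |v| ≤ k) (hδ : 0 ≤ δ) :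
    volume {x : ℝ | x ∈ Ico (0 : ℝ) 1 ∧ |a k x - v| ≤ δ} ≤ ENNReal.ofReal (δ / k) := by
  have hpi := Real.pi_gt_three
  have hk0 : 0 < k := by linarith
  have h2 : 0 < 2 * Real.pi * k := by positivity
  set c := (v - 2) / (2 * Real.pi * k)
  have hc : |c| ≤ 1 / 2 := by
    rw [abs_div, abs_of_pos h2, div_le_iff₀ h2]
    have : |v - 2| ≤ |v| + 2 := by
      calc |v - 2| ≤ |v| + |(2 : ℝ)| := abs_sub _ _
        _ = |v| + 2 := by norm_num
    nlinarith
  have hsub : {x : ℝ | x ∈ Ico (0 : ℝ) 1 ∧ |a k x - v| ≤ δ} ⊆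
      {x : ℝ | x ∈ Ico (0 : ℝ) 1 ∧ |Real.cos (2 * Real.pi * x) - c| ≤ δ / (2 * Real.pi * k)} := by
    rintro x ⟨hx, hx1⟩
    refine ⟨hx, ?_⟩
    have e : Real.cos (2 * Real.pi * x) - c = (a k x - v) / (2 * Real.pi * k) := by
      unfold a c
      field_simp
      ring
    rw [e, abs_div, abs_of_pos h2]
    exact div_le_div_of_nonneg_right hx1 h2.le
  refine (measure_mono hsub).trans ((vol_cos hc (by positivity)).trans ?_)
  apply ENNReal.ofReal_le_ofReal
  rw [← mul_div_assoc, div_le_div_iff₀ h2 hk0]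
  have : 0 ≤ δ * k := by positivity
  nlinarith

/-- the same for the two-dimensional law -/
theorem mQ_near {k v δ : ℝ} (hk : 1 ≤ k) (hv : |v| ≤ k) (hδ : 0 ≤ δ) :
    mQ {z : ℝ × ℝ | |a k z.1 - v| ≤ δ} ≤ ENNReal.ofReal (δ / k) := by
  have hm : MeasurableSet {x : ℝ | |a k x - v| ≤ δ} := by
    apply measurableSet_le _ measurable_const
    unfold a
    fun_prop
  have e : {z : ℝ × ℝ | |a k z.1 - v| ≤ δ} = {x : ℝ | |a k x - v| ≤ δ} ×ˢ univ := by
    ext z; simp
  rw [mQ_eq, e, Measure.prod_prod, Measure.restrict_apply hm]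
  have h1 : (volume.restrict (Ico (0 : ℝ) 1)) univ = 1 := by simp
  rw [h1, mul_one]
  refine le_trans (measure_mono ?_) (vol_near hk hv hδ)
  rintro x ⟨h1, h2⟩
  exact ⟨h2, h1⟩

/-- the mass of `{|a| < s}` -/
theorem mQ_small {k s : ℝ} (hk : 1 ≤ k) (hs : 0 ≤ s) :
    mQ {z : ℝ × ℝ | |a k z.1| < s} ≤ ENNReal.ofReal (s / k) := by
  refine le_trans (measure_mono ?_) (mQ_near (v := 0) hk (by simp; linarith) hs)
  intro z hz
  simp only [mem_ofPred_eq, sub_zero] at hz ⊢
  exact hz.le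

/-- the mass of a neighbourhood of the threshold `|a| = s` -/
theorem mQ_thr {k s δ : ℝ} (hk : 1 ≤ k) (hs : |s| ≤ k) (hδ : 0 ≤ δ) :
    mQ {z : ℝ × ℝ | |(|a k z.1|) - s| ≤ δ} ≤ ENNReal.ofReal (2 * δ / k) := by
  have hsub : {z : ℝ × ℝ | |(|a k z.1|) - s| ≤ δ} ⊆
      {z : ℝ × ℝ | |a k z.1 - s| ≤ δ} ∪ {z : ℝ × ℝ | |a k z.1 - (-s)| ≤ δ} := by
    intro z hz
    simp only [mem_ofPred_eq, mem_union] at hz ⊢
    rcases le_total 0 (a k z.1) with h | h
    · rw [abs_of_nonneg h] at hz; exact Or.inl hz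
    · rw [abs_of_nonpos h] at hz
      right
      rw [show a k z.1 - (-s) = -(-a k z.1 - s) by ring, abs_neg]; exact hz
  calc mQ {z : ℝ × ℝ | |(|a k z.1|) - s| ≤ δ}
      ≤ mQ {z : ℝ × ℝ | |a k z.1 - s| ≤ δ} + mQ {z : ℝ × ℝ | |a k z.1 - (-s)| ≤ δ} :=
        (measure_mono hsub).trans (measure_union_le _ _)
    _ ≤ ENNReal.ofReal (δ / k) + ENNReal.ofReal (δ / k) :=
        add_le_add (mQ_near hk hs hδ) (mQ_near hk (by rwa [abs_neg]) hδ)
    _ = ENNReal.ofReal (2 * δ / k) := by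
        rw [← ENNReal.ofReal_add (by positivity) (by positivity)]; congr 1; ring

/-! ### Generic thresholds -/

lemma vol_param {τ : ℝ → ℝ} {l v δ : ℝ} (hl : 0 < l)
    (hτ : ∀ s ∈ Icc (0 : ℝ) 1, ∀ t ∈ Icc (0 : ℝ) 1, l * |s - t| ≤ |τ s - τ t|) :
    volume {s : ℝ | s ∈ Icc (0 : ℝ) 1 ∧ |v - τ s| ≤ δ} ≤ ENNReal.ofReal (2 * δ / l) := by
  rcases lt_or_ge δ 0 with hδ | hδ
  · have : {s : ℝ | s ∈ Icc (0 : ℝ) 1 ∧ |v - τ s| ≤ δ} = ∅ := by
      ext s
      simp only [mem_ofPred_eq, mem_empty_iff_false, iff_false, not_and, not_le]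
      intro _
      exact hδ.trans_le (abs_nonneg _)
    rw [this]; simp
  refine (Real.volume_le_diam _).trans ?_
  apply Metric.ediam_le
  rintro s ⟨hs, hs1⟩ t ⟨ht, ht1⟩
  rw [edist_dist, Real.dist_eq]
  apply ENNReal.ofReal_le_ofReal
  rw [le_div_iff₀ hl]
  have h1 := hτ s hs t ht
  have h2 : |τ s - τ t| ≤ |v - τ t| + |v - τ s| := by
    calc |τ s - τ t| = |(v - τ t) - (v - τ s)| := by congr 1; ring
      _ ≤ _ := abs_sub _ _
  nlinarith

/-- **Generic thresholds.** For countably many random variables `V i`, threshold functions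
`τ i : [0,1] → ℝ` expanding distances by at least `l i`, widths `δ i` and weights `w i`, there
is one parameter `s ∈ [0,1]` for which the weighted sum of the masses of the near-threshold
events is at most `∑ w i * (2 δ i / l i)`. -/
theorem exists_generic {Ω : Type*} [MeasurableSpace Ω] (μ : Measure Ω) [IsProbabilityMeasure μ]
    {ι : Type*} [Countable ι] (V : ι → Ω → ℝ) (hV : ∀ i, Measurable (V i))
    (τ : ι → ℝ → ℝ) (hτm : ∀ i, Measurable (τ i)) (l δ : ι → ℝ) (hl : ∀ i, 0 < l i)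
    (hτ : ∀ i, ∀ s ∈ Icc (0 : ℝ) 1, ∀ t ∈ Icc (0 : ℝ) 1, l i * |s - t| ≤ |τ i s - τ i t|)
    (w : ι → ℝ≥0∞) :
    ∃ s ∈ Icc (0 : ℝ) 1, ∑' i, w i * μ {ω | |V i ω - τ i s| ≤ δ i} ≤
      ∑' i, w i * ENNReal.ofReal (2 * δ i / l i) := by
  have : IsProbabilityMeasure (volume.restrict (Icc (0 : ℝ) 1)) := ⟨by simp⟩
  have hms : ∀ i, MeasurableSet {p : ℝ × Ω | |V i p.2 - τ i p.1| ≤ δ i} := by
    intro i
    apply measurableSet_le _ measurable_const
    have h1 : Measurable (fun p : ℝ × Ω => V i p.2) := (hV i).comp measurable_snd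
    have h2 : Measurable (fun p : ℝ × Ω => τ i p.1) := (hτm i).comp measurable_fst
    exact continuous_abs.measurable.comp (h1.sub h2)
  have hmeas : ∀ i, Measurable (fun s : ℝ => w i * μ {ω | |V i ω - τ i s| ≤ δ i}) := by
    intro i
    apply Measurable.const_mul
    exact measurable_measure_prodMk_left (hms i)
  have hint : ∀ i, ∫⁻ s in Icc (0 : ℝ) 1, w i * μ {ω | |V i ω - τ i s| ≤ δ i}
      ≤ w i * ENNReal.ofReal (2 * δ i / l i) := by
    intro i
    have h0 : Measurable (fun s : ℝ => μ {ω | |V i ω - τ i s| ≤ δ i}) :=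
      measurable_measure_prodMk_left (hms i)
    rw [lintegral_const_mul _ h0]
    gcongr
    have h1 : ∫⁻ s in Icc (0 : ℝ) 1, μ {ω | |V i ω - τ i s| ≤ δ i} =
        ((volume.restrict (Icc (0 : ℝ) 1)).prod μ) {p : ℝ × Ω | |V i p.2 - τ i p.1| ≤ δ i} := by
      rw [Measure.prod_apply (hms i)]
      rfl
    rw [h1, Measure.prod_apply_symm (hms i)]
    calc ∫⁻ ω, (volume.restrict (Icc (0 : ℝ) 1))
          ((fun s => (s, ω)) ⁻¹' {p : ℝ × Ω | |V i p.2 - τ i p.1| ≤ δ i}) ∂μ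
        ≤ ∫⁻ _, ENNReal.ofReal (2 * δ i / l i) ∂μ := by
          apply lintegral_mono
          intro ω
          have hm2 : MeasurableSet
              ((fun s => (s, ω)) ⁻¹' {p : ℝ × Ω | |V i p.2 - τ i p.1| ≤ δ i}) :=
            measurable_prodMk_right (hms i)
          change (volume.restrict (Icc (0 : ℝ) 1)) _ ≤ _
          rw [Measure.restrict_apply hm2]
          refine le_trans (measure_mono ?_) (vol_param (v := V i ω) (δ := δ i) (hl i) (hτ i))
          rintro s ⟨h1, h2⟩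
          exact ⟨h2, h1⟩
      _ = ENNReal.ofReal (2 * δ i / l i) := by simp
  have hAE : AEMeasurable (fun s : ℝ => ∑' i, w i * μ {ω | |V i ω - τ i s| ≤ δ i})
      (volume.restrict (Icc (0 : ℝ) 1)) := (Measurable.tsum hmeas).aemeasurable
  have htot : ∫⁻ s in Icc (0 : ℝ) 1, ∑' i, w i * μ {ω | |V i ω - τ i s| ≤ δ i}
      ≤ ∑' i, w i * ENNReal.ofReal (2 * δ i / l i) := by
    rw [lintegral_tsum fun i => (hmeas i).aemeasurable]
    exact ENNReal.tsum_le_tsum hint
  obtain ⟨s, hs, hs1⟩ := exists_le_setLAverage (μ := volume) (s := Icc (0 : ℝ) 1) (by simp)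
    (by simp) hAE
  refine ⟨s, hs, hs1.trans ?_⟩
  rw [setLAverage_eq]
  simpa using htot

end Vale.Agent.P108.H954
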