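import Vale.Agent.P108.H954.Near
import Vale.Agent.P108.Area.Coord
import Vale.Agent.P108.Sk.Blocks

/-!
# P108: the nearly undecided set is small for a generic parameter ([NEAR] of `Sk/Blocks`)
-/

open MeasureTheory Filter Set Topology
open scoped ENNReal

namespace Vale.Agent.P108.H954

open Vale.Agent.P108 Vale.Agent.P108.Dyn Vale.Agent.P108.H786 P108C
open Vale.Agent.P108.Sk

/-- codes of the decisions -/
def dcod : Dec → ℕ × ℤ × ℤ × ℤ × ℕ
  | .crit t => (0, t, 0, 0, 0)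
  | .nc t => (1, t, 0, 0, 0)
  | .c1 i j => (2, i, j, 0, 0)
  | .c2 i j => (3, i, j, 0, 0)
  | .gr i j => (4, i, j, 0, 0)
  | .pk R i m j => (5, i, j, m, R)

lemma dcod_inj : Function.Injective dcod := by
  intro d d' h
  cases d <;> cases d' <;> simp_all [dcod]

/-- the total size of the code of a decision -/
def dsz (d : Dec) : ℕ :=
  (dcod d).1 + ((dcod d).2.1.natAbs + ((dcod d).2.2.1.natAbs +
    ((dcod d).2.2.2.1.natAbs + (dcod d).2.2.2.2)))

lemma adm_dst_pos {k : ℝ} {d : Dec} (h : d.Adm k) : (Sk.s0 k : ℤ) ≤ d.dst := h.2.1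

lemma dsz_le {k : ℝ} {d : Dec} (h : d.Adm k) : (dsz d : ℤ) ≤ 7 * d.dst + 5 := by
  obtain ⟨h1, h2, h3, h4⟩ := h
  cases d <;> simp only [dsz, dcod, Dec.dst, Dec.lo, Dec.hi] at * <;> omega

/-- total weight -/
lemma tsum_int_half : ∑' i : ℤ, ENNReal.ofReal ((1 / 2 : ℝ) ^ i.natAbs) = ENNReal.ofReal 3 := by
  have hs : Summable (fun n : ℕ => (1 / 2 : ℝ) ^ n) := summable_geometric_two
  have h1 : Summable (fun i : ℤ => (1 / 2 : ℝ) ^ i.natAbs) := by
    apply Summable.of_nat_of_neg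
    · simpa using hs
    · simpa using hs
  rw [← ENNReal.ofReal_tsum_of_nonneg (fun i => by positivity) h1]
  congr 1
  have h2 := tsum_of_add_one_of_neg_add_one (f := fun i : ℤ => (1 / 2 : ℝ) ^ i.natAbs)
    (by
      have := (summable_nat_add_iff 1).2 hs
      refine this.congr fun n => ?_
      have : ((n : ℤ) + 1).natAbs = n + 1 := by omega
      rw [this])
    (by
      have := (summable_nat_add_iff 1).2 hs
      refine this.congr fun n => ?_
      have : (-((n : ℤ) + 1)).natAbs = n + 1 := by omega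
      rw [this])
  rw [h2]
  have e1 : ∀ n : ℕ, (1 / 2 : ℝ) ^ ((n : ℤ) + 1).natAbs = (1 / 2) * (1 / 2) ^ n := by
    intro n
    have : ((n : ℤ) + 1).natAbs = n + 1 := by omega
    rw [this, pow_succ]; ring
  have e2 : ∀ n : ℕ, (1 / 2 : ℝ) ^ (-((n : ℤ) + 1)).natAbs = (1 / 2) * (1 / 2) ^ n := by
    intro n
    have : (-((n : ℤ) + 1)).natAbs = n + 1 := by omega
    rw [this, pow_succ]; ring
  simp_rw [e1, e2]
  rw [tsum_mul_left, tsum_geometric_two]
  norm_num

lemma tsum_nat_half : ∑' i : ℕ, ENNReal.ofReal ((1 / 2 : ℝ) ^ i) = ENNReal.ofReal 2 := by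
  rw [← ENNReal.ofReal_tsum_of_nonneg (fun i => by positivity) summable_geometric_two,
    tsum_geometric_two]

lemma tsum_dsz : ∑' d : Dec, ENNReal.ofReal ((1 / 2 : ℝ) ^ dsz d) ≤ ENNReal.ofReal 108 := by
  set g : ℕ × ℤ × ℤ × ℤ × ℕ → ℝ≥0∞ := fun x =>
    ENNReal.ofReal ((1 / 2 : ℝ) ^ x.1) * (ENNReal.ofReal ((1 / 2 : ℝ) ^ x.2.1.natAbs) *
      (ENNReal.ofReal ((1 / 2 : ℝ) ^ x.2.2.1.natAbs) *
        (ENNReal.ofReal ((1 / 2 : ℝ) ^ x.2.2.2.1.natAbs) *
          ENNReal.ofReal ((1 / 2 : ℝ) ^ x.2.2.2.2)))) with hg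
  have h1 : ∀ d : Dec, ENNReal.ofReal ((1 / 2 : ℝ) ^ dsz d) = g (dcod d) := by
    intro d
    simp only [hg, dsz]
    rw [← ENNReal.ofReal_mul (by positivity), ← ENNReal.ofReal_mul (by positivity),
      ← ENNReal.ofReal_mul (by positivity), ← ENNReal.ofReal_mul (by positivity)]
    congr 1
    simp only [pow_add]
  calc ∑' d : Dec, ENNReal.ofReal ((1 / 2 : ℝ) ^ dsz d) = ∑' d : Dec, g (dcod d) := by
        simp_rw [h1]
    _ ≤ ∑' x, g x := ENNReal.tsum_comp_le_tsum_of_injective dcod_inj g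
    _ = ENNReal.ofReal 108 := by
        rw [ENNReal.tsum_prod']
        simp only [hg, ENNReal.tsum_mul_left]
        rw [ENNReal.tsum_mul_right, tsum_nat_half]
        rw [ENNReal.tsum_prod']
        simp only [ENNReal.tsum_mul_left]
        rw [ENNReal.tsum_mul_right, tsum_int_half]
        rw [ENNReal.tsum_prod']
        simp only [ENNReal.tsum_mul_left]
        rw [ENNReal.tsum_mul_right, tsum_int_half]
        rw [ENNReal.tsum_prod']
        simp only [ENNReal.tsum_mul_left]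
        rw [ENNReal.tsum_mul_right, tsum_int_half, tsum_nat_half]
        rw [← ENNReal.ofReal_mul (by norm_num), ← ENNReal.ofReal_mul (by norm_num),
          ← ENNReal.ofReal_mul (by norm_num), ← ENNReal.ofReal_mul (by norm_num)]
        norm_num

lemma s0_ge {k : ℝ} (hk : (2 : ℝ) ^ 200 ≤ k) : 100 ≤ Sk.s0 k := by
  have hk0 : (0 : ℝ) < k := lt_of_lt_of_le (by positivity) hk
  have h1 : (100 : ℝ) ≤ k ^ (1 - cb : ℝ) := by
    calc (100 : ℝ) ≤ (2 : ℝ) ^ (196 : ℝ) := by norm_num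
      _ = ((2 : ℝ) ^ (200 : ℝ)) ^ (1 - cb : ℝ) := by
          rw [← Real.rpow_mul (by norm_num)]; norm_num
      _ ≤ k ^ (1 - cb : ℝ) := by
          apply Real.rpow_le_rpow (by positivity) _ (by norm_num)
          have : (2 : ℝ) ^ (200 : ℝ) = 2 ^ (200 : ℕ) := by
            rw [← Real.rpow_natCast]; norm_num
          rw [this]; exact hk
  have hl : 1 ≤ Real.log k := by
    rw [Real.le_log_iff_exp_le hk0]
    have := Real.exp_one_lt_d9
    have h2 : (3 : ℝ) ≤ 2 ^ 200 := by norm_num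
    linarith
  have h3 : (100 : ℝ) ≤ k ^ (1 - cb : ℝ) * Real.log k ^ 2 := by nlinarith
  have h2 : (100 : ℝ) ≤ (Sk.s0 k : ℝ) := h3.trans (Nat.le_ceil _)
  exact_mod_cast h2

lemma weight_le {k : ℝ} (hk : (2 : ℝ) ^ 200 ≤ k) {d : Dec} (h : d.Adm k) :
    2 * k ^ (-((d.dst : ℝ) / 12)) ≤ k⁻¹ / 108 * (1 / 2) ^ dsz d := by
  have hk0 : (0 : ℝ) < k := lt_of_lt_of_le (by positivity) hk
  have hk1 : (1 : ℝ) ≤ k := le_trans (by norm_num) hk
  have hD : (100 : ℤ) ≤ d.dst := by
    have := adm_dst_pos h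
    have h2 := s0_ge hk
    omega
  have hDr : (100 : ℝ) ≤ (d.dst : ℝ) := by exact_mod_cast hD
  have hz := dsz_le h
  have hzr : (dsz d : ℝ) ≤ 7 * (d.dst : ℝ) + 5 := by exact_mod_cast hz
  set x : ℝ := (d.dst : ℝ) with hx
  -- in powers of two
  have e1 : (1 / 2 : ℝ) ^ dsz d = (2 : ℝ) ^ (-(dsz d : ℝ)) := by
    rw [Real.rpow_neg (by norm_num), Real.rpow_natCast]
    simp
  have h3 : (2 : ℝ) ^ (-(7 * x + 5)) ≤ (1 / 2 : ℝ) ^ dsz d := by
    rw [e1]
    exact Real.rpow_le_rpow_of_exponent_le (by norm_num) (by linarith)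
  have h4 : k ^ (-(x / 12)) ≤ k ^ (-(3 / 2 : ℝ)) * (2 : ℝ) ^ (-(8 * x)) := by
    have h5 : k ^ (-(x / 12)) = k ^ (-(3 / 2 : ℝ)) * k ^ (-(x / 12 - 3 / 2)) := by
      rw [← Real.rpow_add hk0]; ring_nf
    rw [h5]
    apply mul_le_mul_of_nonneg_left _ (by positivity)
    rw [Real.rpow_neg hk0.le, Real.rpow_neg (by norm_num)]
    apply inv_anti₀ (by positivity)
    calc (2 : ℝ) ^ (8 * x) ≤ (2 : ℝ) ^ (200 * (x / 12 - 3 / 2)) := by
          apply Real.rpow_le_rpow_of_exponent_le (by norm_num)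
          linarith
      _ = ((2 : ℝ) ^ (200 : ℝ)) ^ (x / 12 - 3 / 2) := by rw [← Real.rpow_mul (by norm_num)]
      _ ≤ k ^ (x / 12 - 3 / 2) := by
          apply Real.rpow_le_rpow (by positivity) _ (by linarith)
          have : (2 : ℝ) ^ (200 : ℝ) = 2 ^ (200 : ℕ) := by
            rw [← Real.rpow_natCast]; norm_num
          rw [this]; exact hk
  have h6 : (2 : ℝ) ^ (-(8 * x)) ≤ (2 : ℝ) ^ (-(7 * x + 5)) * (1 / 2 ^ 90) := by
    have : (1 / 2 ^ 90 : ℝ) = (2 : ℝ) ^ (-(90 : ℝ)) := by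
      rw [Real.rpow_neg (by norm_num), one_div]
      congr 1
      rw [show (90 : ℝ) = ((90 : ℕ) : ℝ) by norm_num, Real.rpow_natCast]
    rw [this, ← Real.rpow_add (by norm_num)]
    apply Real.rpow_le_rpow_of_exponent_le (by norm_num)
    linarith
  have h7 : k ^ (-(3 / 2 : ℝ)) ≤ k⁻¹ := by
    rw [← Real.rpow_neg_one]
    exact Real.rpow_le_rpow_of_exponent_le hk1 (by norm_num)
  calc 2 * k ^ (-(x / 12)) ≤ 2 * (k ^ (-(3 / 2 : ℝ)) * (2 : ℝ) ^ (-(8 * x))) := by linarith
    _ ≤ 2 * (k⁻¹ * ((2 : ℝ) ^ (-(7 * x + 5)) * (1 / 2 ^ 90))) := by gcongr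
    _ ≤ 2 * (k⁻¹ * ((1 / 2 : ℝ) ^ dsz d * (1 / 2 ^ 90))) := by gcongr
    _ = k⁻¹ * (1 / 2 : ℝ) ^ dsz d * (2 / 2 ^ 90) := by ring
    _ ≤ k⁻¹ * (1 / 2 : ℝ) ^ dsz d * (1 / 108) := by
        apply mul_le_mul_of_nonneg_left _ (by positivity)
        norm_num
    _ = k⁻¹ / 108 * (1 / 2) ^ dsz d := by ring

lemma measurable_num (k : ℝ) (d : Dec) : Measurable (fun z => d.num (ao k z)) := by
  have hD : ∀ i j, Measurable (fun z => |D (ao k z) i j|) := fun i j =>
    (continuous_abs.comp (Area.continuous_D k i j)).measurable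
  have ha : ∀ t, Measurable (fun z => |ao k z t|) := fun t =>
    (continuous_abs.comp (Area.continuous_ao k t)).measurable
  cases d with
  | crit t => exact ha t
  | nc t => exact ha t
  | c1 i j => exact hD i j
  | c2 i j => exact hD i j
  | gr i j => exact hD i j
  | pk R i m j => exact hD i j

lemma measurable_den (k : ℝ) (d : Dec) : Measurable (fun z => d.den k (ao k z)) := by
  have hD : ∀ i j, Measurable (fun z => |D (ao k z) i j|) := fun i j =>
    (continuous_abs.comp (Area.continuous_D k i j)).measurable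
  cases d with
  | crit t => exact measurable_const
  | nc t => exact measurable_const
  | c1 i j => exact (hD i (j - 1)).const_mul _
  | c2 i j => exact (hD (i + 1) j).const_mul _
  | gr i j => exact measurable_const
  | pk R i m j => exact ((hD i (m - 2)).mul (hD m j)).const_mul _

/-- **[NEAR]** -/
theorem nearBound : NearBound := by
  classical
  refine ⟨2 ^ 200, fun k hk => ?_⟩
  have hk0 : (0 : ℝ) < k := lt_of_lt_of_le (by positivity) hk
  obtain ⟨s, hs, hs1⟩ := exists_generic mQ (ι := Dec)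
    (fun d z => d.num (ao k z) / d.den k (ao k z))
    (fun d => (measurable_num k d).div (measurable_den k d))
    (fun _ s => 1 + s) (fun _ => measurable_const.add measurable_id)
    (fun _ => 1) (fun d => k ^ (-((d.dst : ℝ) / 12))) (fun _ => one_pos)
    (fun _ s _ t _ => by
      rw [one_mul]
      apply le_of_eq
      congr 1
      ring)
    (fun d => if d.Adm k then 1 else 0)
  refine ⟨s, hs, ?_⟩
  have hsub : Near k s ⊆ ⋃ d : Dec, {z | d.Adm k ∧
      |d.num (ao k z) / d.den k (ao k z) - (1 + s)| ≤ k ^ (-((d.dst : ℝ) / 12))} := by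
    rintro z ⟨d, h1, h2⟩
    exact mem_iUnion.2 ⟨d, h1, h2⟩
  have h1 : mQ (Near k s) ≤ ENNReal.ofReal k⁻¹ := by
    calc mQ (Near k s) ≤ ∑' d : Dec, mQ {z | d.Adm k ∧
        |d.num (ao k z) / d.den k (ao k z) - (1 + s)| ≤ k ^ (-((d.dst : ℝ) / 12))} :=
          (measure_mono hsub).trans (measure_iUnion_le _)
      _ ≤ ∑' d : Dec, (if d.Adm k then 1 else 0) * mQ {z |
          |d.num (ao k z) / d.den k (ao k z) - (1 + s)| ≤ k ^ (-((d.dst : ℝ) / 12))} := by
          apply ENNReal.tsum_le_tsum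
          intro d
          by_cases hd : d.Adm k
          · simp [hd]
          · simp [hd]
      _ ≤ ∑' d : Dec, (if d.Adm k then 1 else 0) *
          ENNReal.ofReal (2 * k ^ (-((d.dst : ℝ) / 12)) / 1) := hs1
      _ ≤ ∑' d : Dec, ENNReal.ofReal (k⁻¹ / 108) * ENNReal.ofReal ((1 / 2 : ℝ) ^ dsz d) := by
          apply ENNReal.tsum_le_tsum
          intro d
          by_cases hd : d.Adm k
          · simp only [hd, if_true, one_mul, div_one]
            rw [← ENNReal.ofReal_mul (by positivity)]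
            exact ENNReal.ofReal_le_ofReal (weight_le hk hd)
          · simp [hd]
      _ ≤ ENNReal.ofReal (k⁻¹ / 108) * ENNReal.ofReal 108 := by
          rw [ENNReal.tsum_mul_left]
          gcongr
          exact tsum_dsz
      _ = ENNReal.ofReal k⁻¹ := by
          rw [← ENNReal.ofReal_mul (by positivity)]
          congr 1
          ring
  rw [measureReal_def]
  exact ENNReal.toReal_le_of_le_ofReal (by positivity) h1

end Vale.Agent.P108.H954
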