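import Vale.Agent.P108.H954.Mean
import Vale.Agent.P108.Cmb.Basic

/-!
# P108, KS entropy: counting fine boxes at the bad runs

The mass of a cylinder of the coding inside a good set `G` is at most
`2 ^ n * (b ^ 2) ^ s * 6 ε`, if two points of `G` on a vertical line with the same name, the same
bad set and close positions at the starts of all bad runs are `ε`-close at time `1`.
-/

open MeasureTheory Filter Set Topology
open scoped ENNReal

namespace Vale.Agent.P108.H954

open Vale.Agent.P108 Vale.Agent.P108.FT Vale.Agent.P108.Dyn Vale.Agent.P108.H504 P108C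

/-! ### Area of thin sets -/

theorem strip {P : Set (ℝ × ℝ)} (hP : MeasurableSet P) {ε : ℝ} (hε : 0 ≤ ε)
    (h : ∀ z ∈ P, ∀ w ∈ P, z.1 = w.1 →
      ∃ m : ℤ, (m = -1 ∨ m = 0 ∨ m = 1) ∧ |z.2 - w.2 - m| ≤ ε) :
    mQ.real P ≤ 6 * ε := by
  have hμ : mQ P ≤ ENNReal.ofReal (6 * ε) := by
    rw [mQ_eq, Measure.prod_apply hP]
    calc ∫⁻ x, (volume.restrict (Ico (0 : ℝ) 1)) (Prod.mk x ⁻¹' P)
          ∂(volume.restrict (Ico (0 : ℝ) 1))
        ≤ ∫⁻ _, ENNReal.ofReal (6 * ε) ∂(volume.restrict (Ico (0 : ℝ) 1)) := by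
          apply lintegral_mono
          intro x
          change (volume.restrict (Ico (0 : ℝ) 1)) (Prod.mk x ⁻¹' P) ≤ _
          refine (Measure.restrict_apply_le _ _).trans ?_
          rcases (Prod.mk x ⁻¹' P).eq_empty_or_nonempty with he | ⟨y, hy⟩
          · rw [he]; simp
          · have hsub : Prod.mk x ⁻¹' P ⊆ Icc (y + (-1) - ε) (y + (-1) + ε) ∪
                (Icc (y + 0 - ε) (y + 0 + ε) ∪ Icc (y + 1 - ε) (y + 1 + ε)) := by
              intro t ht
              obtain ⟨m, hm, hm2⟩ := h (x, t) ht (x, y) hy rfl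
              obtain ⟨h1, h2⟩ := abs_le.1 hm2
              simp only at h1 h2
              rcases hm with rfl | rfl | rfl
              · left; push_cast at h1 h2; exact ⟨by linarith, by linarith⟩
              · right; left; push_cast at h1 h2; exact ⟨by linarith, by linarith⟩
              · right; right; push_cast at h1 h2; exact ⟨by linarith, by linarith⟩
            refine (measure_mono hsub).trans ((measure_union_le _ _).trans ?_)
            refine (add_le_add le_rfl (measure_union_le _ _)).trans ?_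
            rw [Real.volume_Icc, Real.volume_Icc, Real.volume_Icc,
              ← ENNReal.ofReal_add (by linarith) (by linarith),
              ← ENNReal.ofReal_add (by linarith) (by linarith)]
            apply ENNReal.ofReal_le_ofReal
            linarith
      _ = ENNReal.ofReal (6 * ε) := by simp
  unfold Measure.real
  exact ENNReal.toReal_le_of_le_ofReal (by positivity) hμ

/-! ### Digits -/

lemma floor_pow_succ {b : ℕ} (hb : 0 < b) (i : ℕ) (u : ℝ) :
    ⌊(b : ℝ) ^ (i + 1) * u⌋₊ / b = ⌊(b : ℝ) ^ i * u⌋₊ := by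
  have hb' : (b : ℝ) ≠ 0 := by exact_mod_cast hb.ne'
  rw [← Nat.floor_div_natCast]
  congr 1
  field_simp
  ring

lemma digits_close {b : ℕ} (hb : 0 < b) {u v : ℝ} (hu : u ∈ Ico (0 : ℝ) 1)
    (hv : v ∈ Ico (0 : ℝ) 1) {l : ℕ}
    (h : ∀ i < l, ⌊(b : ℝ) ^ (i + 1) * u⌋₊ % b = ⌊(b : ℝ) ^ (i + 1) * v⌋₊ % b) :
    |u - v| < ((b : ℝ) ^ l)⁻¹ := by
  have hb' : (0 : ℝ) < b := by exact_mod_cast hb
  have key : ∀ i ≤ l, ⌊(b : ℝ) ^ i * u⌋₊ = ⌊(b : ℝ) ^ i * v⌋₊ := by
    intro i
    induction i with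
    | zero =>
      intro _
      simp only [pow_zero, one_mul]
      rw [Nat.floor_eq_zero.2 hu.2, Nat.floor_eq_zero.2 hv.2]
    | succ i ih =>
      intro hi
      have h1 := ih (by omega)
      have h2 := h i (by omega)
      rw [← Nat.div_add_mod (⌊(b : ℝ) ^ (i + 1) * u⌋₊) b,
        ← Nat.div_add_mod (⌊(b : ℝ) ^ (i + 1) * v⌋₊) b, floor_pow_succ hb, floor_pow_succ hb, h1, h2]
  have h3 := key l le_rfl
  have hpos : (0 : ℝ) < (b : ℝ) ^ l := by positivity
  have a1 := Nat.floor_le (mul_nonneg hpos.le hu.1)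
  have a2 := Nat.lt_floor_add_one ((b : ℝ) ^ l * u)
  have a3 := Nat.floor_le (mul_nonneg hpos.le hv.1)
  have a4 := Nat.lt_floor_add_one ((b : ℝ) ^ l * v)
  rw [h3] at a1 a2
  rw [inv_eq_one_div, lt_div_iff₀ hpos]
  have e : |u - v| * (b : ℝ) ^ l = |(b : ℝ) ^ l * u - (b : ℝ) ^ l * v| := by
    rw [← mul_sub, abs_mul, abs_of_pos hpos, mul_comm]
  rw [e, abs_lt]
  constructor <;> linarith

/-- start of the run of `S` containing `j` -/
noncomputable def st (S : Set ℤ) (j : ℕ) : ℕ := sInf {d : ℕ | ∀ i : ℕ, d ≤ i → i ≤ j → (i : ℤ) ∈ S}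

lemma st_eq {S : Set ℤ} {p q j : ℕ} (h : ∀ i : ℕ, p ≤ i → i < q → (i : ℤ) ∈ S)
    (h0 : (p : ℤ) - 1 ∉ S ∨ p = 0) (h1 : p ≤ j) (h2 : j < q) : st S j = p := by
  unfold st
  apply le_antisymm
  · exact Nat.sInf_le fun i hi hj => h i hi (by omega)
  · have hne : {d : ℕ | ∀ i : ℕ, d ≤ i → i ≤ j → (i : ℤ) ∈ S}.Nonempty :=
      ⟨p, fun i hi hj => h i hi (lt_of_le_of_lt hj h2)⟩
    apply le_csInf hne
    intro d hd
    by_contra hcon
    push Not at hcon
    rcases h0 with h0 | h0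
    · apply h0
      have := hd (p - 1) (by omega) (by omega)
      rwa [Nat.cast_sub (by omega), Nat.cast_one] at this
    · omega

lemma st_congr {S S' : Set ℤ} {n j : ℕ} (hj : j < n)
    (h : ∀ i : ℤ, 0 ≤ i → i < n → (i ∈ S ↔ i ∈ S')) : st S j = st S' j := by
  unfold st
  congr 1
  ext d
  simp only [mem_ofPred_eq]
  constructor
  · intro h1 i h2 h3
    exact (h i (by omega) (by omega)).1 (h1 i h2 h3)
  · intro h1 i h2 h3
    exact (h i (by omega) (by omega)).2 (h1 i h2 h3)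

/-- the digit at the site `j` -/
noncomputable def dig (k : ℝ) (b : ℕ) (S : Set ℤ) (z : ℝ × ℝ) (j : ℕ) : ℕ × ℕ :=
  (⌊(b : ℝ) ^ (j - st S j + 1) * Int.fract (orb k z (st S j))⌋₊ % b,
    ⌊(b : ℝ) ^ (j - st S j + 1) * Int.fract (orb k z (st S j + 1))⌋₊ % b)

lemma dig_close {k : ℝ} {b : ℕ} (hb : 0 < b) {S : Set ℤ} {p q : ℕ}
    (h : ∀ i : ℕ, p ≤ i → i < q → (i : ℤ) ∈ S) (h0 : (p : ℤ) - 1 ∉ S ∨ p = 0) (hpq : p ≤ q)
    {z w : ℝ × ℝ} (hd : ∀ j : ℕ, p ≤ j → j < q → dig k b S z j = dig k b S w j) :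
    |dy k z w p| < ((b : ℝ) ^ (q - p))⁻¹ ∧ |dy k z w (p + 1)| < ((b : ℝ) ^ (q - p))⁻¹ := by
  have hst : ∀ i < q - p, st S (p + i) = p := fun i hi => st_eq h h0 (by omega) (by omega)
  constructor
  · apply digits_close hb ⟨Int.fract_nonneg _, Int.fract_lt_one _⟩
      ⟨Int.fract_nonneg _, Int.fract_lt_one _⟩
    intro i hi
    have h1 := congrArg Prod.fst (hd (p + i) (by omega) (by omega))
    simpa only [dig, hst i hi, Nat.add_sub_cancel_left] using h1
  · apply digits_close hb ⟨Int.fract_nonneg _, Int.fract_lt_one _⟩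
      ⟨Int.fract_nonneg _, Int.fract_lt_one _⟩
    intro i hi
    have h1 := congrArg Prod.snd (hd (p + i) (by omega) (by omega))
    simpa only [dig, hst i hi, Nat.add_sub_cancel_left] using h1

/-! ### The counting theorem -/

/-- trace of a set of integers on `[0, n)` -/
noncomputable def tr (n : ℕ) (S : Set ℤ) : Finset ℕ := by
  classical
  exact (Finset.range n).filter fun i => (i : ℤ) ∈ S

lemma mem_tr {n i : ℕ} {S : Set ℤ} : i ∈ tr n S ↔ i < n ∧ (i : ℤ) ∈ S := by
  simp [tr]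

lemma card_tr (n : ℕ) (S : Set ℤ) : (tr n S).card = ms S 0 n := by
  classical
  unfold ms
  apply Finset.card_bij (fun (i : ℕ) _ => (i : ℤ))
  · intro i hi
    obtain ⟨h1, h2⟩ := mem_tr.1 hi
    simp only [Finset.mem_filter, Finset.mem_Ico]
    exact ⟨⟨by omega, by omega⟩, h2⟩
  · intro i _ j _ h
    exact_mod_cast h
  · intro j hj
    simp only [Finset.mem_filter, Finset.mem_Ico] at hj
    obtain ⟨⟨h1, h2⟩, h3⟩ := hj
    refine ⟨j.toNat, mem_tr.2 ⟨by omega, by rwa [Int.toNat_of_nonneg h1]⟩, Int.toNat_of_nonneg h1⟩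

theorem cyl_le {k : ℝ} {N : ℕ} [NeZero N] {b : ℕ} (hb : 1 ≤ b) {n : ℕ} {X : ℝ × ℝ → Set ℤ}
    (hXm : ∀ i, MeasurableSet {z | i ∈ X z}) {G : Set (ℝ × ℝ)} (hG : MeasurableSet G)
    (hGQ : G ⊆ Q) {s : ℕ} (hs : ∀ z ∈ G, ms (X z) 0 n ≤ s) {ε : ℝ} (hε : 0 ≤ ε)
    (Hexp : ∀ z ∈ G, ∀ w ∈ G, z.1 = w.1 →
      P109.KS.name (T k) (cod N) n z = P109.KS.name (T k) (cod N) n w →
      (∀ i : ℤ, 0 ≤ i → i < n → (i ∈ X z ↔ i ∈ X w)) →
      (∀ p q : ℕ, p < q → q ≤ n → (∀ i : ℕ, p ≤ i → i < q → (i : ℤ) ∈ X z) →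
        ((p : ℤ) - 1 ∉ X z ∨ p = 0) →
        |dy k z w p| < ((b : ℝ) ^ (q - p))⁻¹ ∧ |dy k z w (p + 1)| < ((b : ℝ) ^ (q - p))⁻¹) →
      |dy k z w 1| ≤ ε) (a : Fin n → Fin N) :
    mQ.real (P109.KS.name (T k) (cod N) n ⁻¹' {a} ∩ G) ≤ 2 ^ n * ((b : ℝ) ^ 2) ^ s * (6 * ε) := by
  classical
  set C := P109.KS.name (T k) (cod N) n ⁻¹' {a} with hC
  have hCm : MeasurableSet C := measurable_name (mp_T k).measurable (measurable_cod N) n a
  have hb0 : 0 < b := hb
  -- one trace
  have hU : ∀ S : Finset ℕ, S.card ≤ s →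
      mQ.real {z | z ∈ C ∩ G ∧ tr n (X z) = S} ≤ ((b : ℝ) ^ 2) ^ s * (6 * ε) := by
    intro S hS
    set S' : Set ℤ := {x | ∃ i ∈ S, x = ((i : ℕ) : ℤ)} with hS'
    let V : (S → Fin b × Fin b) → Set (ℝ × ℝ) := fun c =>
      {z | z ∈ C ∩ G ∧ (∀ i : ℕ, i < n → ((i : ℤ) ∈ X z ↔ i ∈ S)) ∧ S ⊆ Finset.range n ∧
        ∀ j : S, dig k b S' z j = ((c j).1.1, (c j).2.1)}
    have hVm : ∀ c, MeasurableSet (V c) := by
      intro c
      have h1 : MeasurableSet {z | ∀ i : ℕ, i < n → ((i : ℤ) ∈ X z ↔ i ∈ S)} := by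
        rw [show {z | ∀ i : ℕ, i < n → ((i : ℤ) ∈ X z ↔ i ∈ S)} =
          ⋂ (i : ℕ) (_ : i < n), {z | ((i : ℤ) ∈ X z ↔ i ∈ S)} by ext z; simp]
        refine MeasurableSet.iInter fun i => MeasurableSet.iInter fun _ => ?_
        by_cases hi : i ∈ S
        · simpa [hi] using hXm i
        · have e : {z | ((i : ℤ) ∈ X z ↔ i ∈ S)} = {z | (i : ℤ) ∈ X z}ᶜ := by
            ext z
            simp [hi]
          rw [e]
          exact (hXm i).compl
      have h2 : MeasurableSet {z | ∀ j : S, dig k b S' z j = ((c j).1.1, (c j).2.1)} := by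
        rw [show {z | ∀ j : S, dig k b S' z j = ((c j).1.1, (c j).2.1)} =
          ⋂ (j : S), {z | dig k b S' z j = ((c j).1.1, (c j).2.1)} by ext z; simp]
        refine MeasurableSet.iInter fun j => ?_
        have hm : Measurable (fun z => dig k b S' z j) := by
          unfold dig
          have g1 : Measurable (fun z => Int.fract (orb k z (st S' j))) :=
            (measurable_orb k _).fract
          have g2 : Measurable (fun z => Int.fract (orb k z (st S' j + 1))) :=
            (measurable_orb k _).fract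
          have g3 : Measurable (fun z => ⌊(b : ℝ) ^ (j - st S' j + 1 : ℕ) *
              Int.fract (orb k z (st S' j))⌋₊ % b) :=
            (measurable_from_top (f := fun m : ℕ => m % b)).comp (g1.const_mul _).nat_floor
          have g4 : Measurable (fun z => ⌊(b : ℝ) ^ (j - st S' j + 1 : ℕ) *
              Int.fract (orb k z (st S' j + 1))⌋₊ % b) :=
            (measurable_from_top (f := fun m : ℕ => m % b)).comp (g2.const_mul _).nat_floor
          exact g3.prodMk g4
        exact hm (measurableSet_singleton _)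
      by_cases h3 : S ⊆ Finset.range n
      · have e : V c = (C ∩ G) ∩ ({z | ∀ i : ℕ, i < n → ((i : ℤ) ∈ X z ↔ i ∈ S)} ∩
          {z | ∀ j : S, dig k b S' z j = ((c j).1.1, (c j).2.1)}) := by
          ext z
          simp only [V, mem_ofPred_eq, mem_inter_iff, h3, true_and]
        rw [e]
        exact (hCm.inter hG).inter (h1.inter h2)
      · have e : V c = ∅ := by
          ext z
          simp only [V, mem_ofPred_eq, h3, false_and, and_false, mem_empty_iff_false]
        rw [e]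
        exact MeasurableSet.empty
    have hVb : ∀ c, mQ.real (V c) ≤ 6 * ε := by
      intro c
      apply strip (hVm c) hε
      rintro z ⟨⟨hzC, hzG⟩, hz2, hSn, hz3⟩ w ⟨⟨hwC, hwG⟩, hw2, _, hw3⟩ hzw
      have hXX : ∀ i : ℤ, 0 ≤ i → i < n → (i ∈ X z ↔ i ∈ X w) := by
        intro i h0 hi
        obtain ⟨j, rfl⟩ := Int.eq_ofNat_of_zero_le h0
        have hj : j < n := by exact_mod_cast hi
        exact (hz2 j hj).trans (hw2 j hj).symm
      have hXS : ∀ i : ℤ, 0 ≤ i → i < n → (i ∈ X z ↔ i ∈ S') := by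
        intro i h0 hi
        obtain ⟨j, rfl⟩ := Int.eq_ofNat_of_zero_le h0
        have hj : j < n := by exact_mod_cast hi
        refine (hz2 j hj).trans ?_
        constructor
        · intro h; exact ⟨j, h, rfl⟩
        · rintro ⟨i, hi, h⟩
          have : j = i := by exact_mod_cast h
          rwa [this]
      have h1 := Hexp z hzG w hwG hzw (hzC.trans hwC.symm) hXX ?_
      · obtain ⟨m, hm, hm2⟩ := snd_sub (hGQ hzG) (hGQ hwG) hzw
        refine ⟨m, hm, ?_⟩
        rw [hm2]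
        simpa using h1
      · intro p q hpq hqn hrun h0
        apply dig_close hb0 (S := S') (p := p) (q := q)
        · intro i hi1 hi2
          exact (hXS i (by omega) (by omega)).1 (hrun i hi1 hi2)
        · rcases h0 with h0 | h0
          · rcases Nat.eq_zero_or_pos p with hp | hp
            · exact Or.inr hp
            · left
              intro hcon
              exact h0 ((hXS _ (by omega) (by omega)).2 hcon)
          · exact Or.inr h0
        · exact hpq.le
        · intro j hj1 hj2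
          have hjS : j ∈ S := (hz2 j (by omega)).1 (hrun j hj1 hj2)
          exact (hz3 ⟨j, hjS⟩).trans (hw3 ⟨j, hjS⟩).symm
    have hcov : {z | z ∈ C ∩ G ∧ tr n (X z) = S} ⊆ ⋃ c, V c := by
      rintro z ⟨hz, hz2⟩
      rw [mem_iUnion]
      refine ⟨fun j => (⟨(dig k b S' z j).1, Nat.mod_lt _ hb0⟩, ⟨(dig k b S' z j).2, Nat.mod_lt _ hb0⟩),
        hz, ?_, ?_, fun j => rfl⟩
      · intro i hi
        rw [← hz2, mem_tr]
        exact ⟨fun h => ⟨hi, h⟩, fun h => h.2⟩
      · rw [← hz2]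
        intro i hi
        exact Finset.mem_range.2 (mem_tr.1 hi).1
    calc mQ.real {z | z ∈ C ∩ G ∧ tr n (X z) = S} ≤ mQ.real (⋃ c, V c) := measureReal_mono hcov
      _ ≤ ∑ c, mQ.real (V c) := measureReal_iUnion_fintype_le _
      _ ≤ ∑ _c : (S → Fin b × Fin b), 6 * ε := Finset.sum_le_sum fun c _ => hVb c
      _ = ((b : ℝ) ^ 2) ^ S.card * (6 * ε) := by
          simp only [Finset.sum_const, Finset.card_univ, Fintype.card_fun, Fintype.card_prod,
            Fintype.card_fin, Fintype.card_coe, nsmul_eq_mul]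
          push_cast
          ring
      _ ≤ ((b : ℝ) ^ 2) ^ s * (6 * ε) := by
          apply mul_le_mul_of_nonneg_right _ (by positivity)
          apply pow_le_pow_right₀ _ hS
          have : (1 : ℝ) ≤ b := by exact_mod_cast hb
          nlinarith
  have hcov : C ∩ G ⊆ ⋃ S ∈ (Finset.range n).powerset.filter (fun S => S.card ≤ s),
      {z | z ∈ C ∩ G ∧ tr n (X z) = S} := by
    intro z hz
    simp only [mem_iUnion]
    refine ⟨tr n (X z), ?_, hz, rfl⟩
    rw [Finset.mem_filter, Finset.mem_powerset]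
    refine ⟨fun i hi => Finset.mem_range.2 (mem_tr.1 hi).1, ?_⟩
    rw [card_tr]
    exact hs z hz.2
  calc mQ.real (C ∩ G)
      ≤ mQ.real (⋃ S ∈ (Finset.range n).powerset.filter (fun S => S.card ≤ s),
        {z | z ∈ C ∩ G ∧ tr n (X z) = S}) := measureReal_mono hcov (measure_ne_top _ _)
    _ ≤ ∑ S ∈ (Finset.range n).powerset.filter (fun S => S.card ≤ s),
        mQ.real {z | z ∈ C ∩ G ∧ tr n (X z) = S} := measureReal_biUnion_finset_le _ _
    _ ≤ ∑ S ∈ (Finset.range n).powerset.filter (fun S => S.card ≤ s),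
        ((b : ℝ) ^ 2) ^ s * (6 * ε) :=
        Finset.sum_le_sum fun S hS => hU S (Finset.mem_filter.1 hS).2
    _ ≤ ∑ S ∈ (Finset.range n).powerset, ((b : ℝ) ^ 2) ^ s * (6 * ε) :=
        Finset.sum_le_sum_of_subset_of_nonneg (Finset.filter_subset _ _)
          fun _ _ _ => by positivity
    _ = 2 ^ n * ((b : ℝ) ^ 2) ^ s * (6 * ε) := by
        rw [Finset.sum_const, Finset.card_powerset, Finset.card_range, nsmul_eq_mul]
        push_cast
        ring

end Vale.Agent.P108.H954
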