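import Vale.Agent.P109.F674.KS
import Mathlib.Analysis.SpecialFunctions.Log.NegMulLog
import Mathlib.MeasureTheory.Measure.Real

/-!
# P108: a lower bound for the Kolmogorov–Sinai entropy from small cylinders
-/

open MeasureTheory Set Filter
open scoped ENNReal

namespace Vale.Agent.P108.H954

open Vale.Agent.P109.KS

/-- Shannon entropy of a finite partition whose atoms are small on a set `G`. -/
theorem shannon_ge {X A : Type} [MeasurableSpace X] [Fintype A] {μ : Measure X}
    [IsProbabilityMeasure μ] {f : X → A} (hf : ∀ a, MeasurableSet (f ⁻¹' {a}))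
    {G : Set X} (hG : MeasurableSet G) (hG0 : 0 < μ.real G) {c : ℝ}
    (h : ∀ a, μ.real (f ⁻¹' {a} ∩ G) ≤ Real.exp (-c)) :
    μ.real G * (c + Real.log (μ.real G)) ≤ shannon μ f := by
  classical
  set g : A → ℝ := fun a => μ.real (f ⁻¹' {a} ∩ G) with hg
  set r : A → ℝ := fun a => μ.real (f ⁻¹' {a} \ G) with hr
  set γ := μ.real G with hγ
  have hγ1 : γ ≤ 1 := measureReal_le_one
  have hg0 : ∀ a, 0 ≤ g a := fun a => measureReal_nonneg
  have hr0 : ∀ a, 0 ≤ r a := fun a => measureReal_nonneg
  have hp : ∀ a, μ.real (f ⁻¹' {a}) = g a + r a := by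
    intro a
    simp only [hg, hr]
    rw [← measureReal_inter_add_sdiff (s := f ⁻¹' {a}) hG]
  have hdisj : Pairwise (Function.onFun Disjoint fun a => f ⁻¹' {a} ∩ G) := by
    intro a b hab
    simp only [Function.onFun]
    rw [Set.disjoint_left]
    rintro x ⟨h1, _⟩ ⟨h2, _⟩
    exact hab (by rw [← mem_singleton_iff.1 h1, ← mem_singleton_iff.1 h2])
  have hdisj' : Pairwise (Function.onFun Disjoint fun a => f ⁻¹' {a} \ G) := by
    intro a b hab
    simp only [Function.onFun]
    rw [Set.disjoint_left]
    rintro x ⟨h1, _⟩ ⟨h2, _⟩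
    exact hab (by rw [← mem_singleton_iff.1 h1, ← mem_singleton_iff.1 h2])
  have hsumg : ∑ a, g a = γ := by
    simp only [hg]
    rw [← measureReal_iUnion_fintype hdisj (fun a => (hf a).inter hG)]
    congr 1
    ext x
    simp
  have hsumr : ∑ a, r a = 1 - γ := by
    simp only [hr]
    rw [← measureReal_iUnion_fintype hdisj' (fun a => (hf a).diff hG)]
    have : (⋃ b, f ⁻¹' {b} \ G) = Gᶜ := by
      ext x
      simp
    rw [this, probReal_compl_eq_one_sub hG]
  -- pointwise estimate
  have key : ∀ a, g a * (c + Real.log γ) ≤ Real.negMulLog (g a + r a) := by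
    intro a
    have hra : r a ≤ 1 - γ := by
      rw [← hsumr]
      exact Finset.single_le_sum (fun b _ => hr0 b) (Finset.mem_univ a)
    have hga : g a ≤ γ := by
      rw [← hsumg]
      exact Finset.single_le_sum (fun b _ => hg0 b) (Finset.mem_univ a)
    have h1 : γ * Real.negMulLog (g a / γ) = g a * (Real.log γ - Real.log (g a)) := by
      rcases eq_or_lt_of_le (hg0 a) with h0 | h0
      · rw [← h0]; simp
      · rw [Real.negMulLog, Real.log_div h0.ne' hG0.ne']
        field_simp
        ring
    have h2 : g a * (c + Real.log γ) ≤ γ * Real.negMulLog (g a / γ) := by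
      rw [h1]
      rcases eq_or_lt_of_le (hg0 a) with h0 | h0
      · rw [← h0]; simp
      · apply mul_le_mul_of_nonneg_left _ h0.le
        have := (Real.log_le_iff_le_exp h0).2 (h a)
        linarith
    refine h2.trans ?_
    rcases eq_or_lt_of_le hγ1 with h3 | h3
    · have h4 : r a = 0 := le_antisymm (by rw [h3] at hra; simpa using hra) (hr0 a)
      rw [h3, h4]; simp
    · have hc : γ * Real.negMulLog (g a / γ) + (1 - γ) * Real.negMulLog (r a / (1 - γ)) ≤
          Real.negMulLog (γ * (g a / γ) + (1 - γ) * (r a / (1 - γ))) := by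
        have := Real.concaveOn_negMulLog.2
          (show g a / γ ∈ Ici (0 : ℝ) from div_nonneg (hg0 a) hG0.le)
          (show r a / (1 - γ) ∈ Ici (0 : ℝ) from div_nonneg (hr0 a) (by linarith))
          hG0.le (show (0 : ℝ) ≤ 1 - γ by linarith) (by ring)
        simpa only [smul_eq_mul] using this
      have e1 : γ * (g a / γ) = g a := by field_simp
      have e2 : (1 - γ) * (r a / (1 - γ)) = r a := by
        have : 1 - γ ≠ 0 := by linarith
        field_simp
      rw [e1, e2] at hc
      have h5 : 0 ≤ Real.negMulLog (r a / (1 - γ)) := by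
        apply Real.negMulLog_nonneg (div_nonneg (hr0 a) (by linarith))
        rw [div_le_one (by linarith)]
        exact hra
      have h6 : 0 ≤ (1 - γ) * Real.negMulLog (r a / (1 - γ)) := mul_nonneg (by linarith) h5
      linarith
  unfold shannon
  calc γ * (c + Real.log γ) = ∑ a, g a * (c + Real.log γ) := by
        rw [← Finset.sum_mul, hsumg]
    _ ≤ ∑ a, Real.negMulLog (g a + r a) := Finset.sum_le_sum fun a _ => key a
    _ = ∑ a, Real.negMulLog (μ.real (f ⁻¹' {a})) := by
        apply Finset.sum_congr rfl
        intro a _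
        rw [hp a]

lemma measurable_name {X : Type} [MeasurableSpace X] {T : X → X} (hT : Measurable T) {k : ℕ}
    {f : X → Fin k} (hf : Measurable f) (n : ℕ) (a : Fin n → Fin k) :
    MeasurableSet (name T f n ⁻¹' {a}) := by
  have : name T f n ⁻¹' {a} = ⋂ i : Fin n, (fun x => f (T^[i] x)) ⁻¹' {a i} := by
    ext x
    simp only [mem_preimage, mem_singleton_iff, mem_iInter]
    constructor
    · intro h i; rw [← h]; rfl
    · intro h; funext i; exact h i
  rw [this]
  apply MeasurableSet.iInter
  intro i
  exact (hf.comp (hT.iterate i)) (measurableSet_singleton _)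

/-- **Entropy from small cylinders**: if for infinitely many `n` the cylinders of length `n` of
one finite coding have mass at most `exp (-c n)` inside a set of mass at least `1/2`, then the
entropy is at least `c / 2`. -/
theorem ksEntropy_ge {X : Type} [MeasurableSpace X] {μ : Measure X} [IsProbabilityMeasure μ]
    {T : X → X} (hT : Measurable T) {k : ℕ} {f : X → Fin k} (hf : Measurable f) {c : ℝ}
    (hc : 0 ≤ c)
    (h : ∃ᶠ n : ℕ in atTop, ∃ G : Set X, MeasurableSet G ∧ 1 / 2 ≤ μ.real G ∧
      ∀ a, μ.real (name T f n ⁻¹' {a} ∩ G) ≤ Real.exp (-(c * n))) :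
    ENNReal.ofReal (c / 2) ≤ ksEntropy μ T := by
  have hstep : ENNReal.ofReal (c / 2) ≤
      limsup (fun n : ℕ => ENNReal.ofReal (shannon μ (name T f n) / n)) atTop := by
    apply ENNReal.le_of_forall_pos_le_add
    intro ε hε _
    have hfr : ∃ᶠ n : ℕ in atTop, ENNReal.ofReal (c / 2 - ε) ≤
        ENNReal.ofReal (shannon μ (name T f n) / n) := by
      have hev : ∀ᶠ n : ℕ in atTop, Real.log 2 / ε ≤ n ∧ 1 ≤ n := by
        refine ((tendsto_natCast_atTop_atTop (R := ℝ)).eventually_ge_atTop _).and
          (eventually_ge_atTop 1)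
      refine (h.and_eventually hev).mono ?_
      rintro n ⟨⟨G, hG, hG2, hGa⟩, hn, hn1⟩
      apply ENNReal.ofReal_le_ofReal
      have hn0 : (0 : ℝ) < n := by exact_mod_cast hn1
      have h1 := shannon_ge (μ := μ) (f := name T f n) (measurable_name hT hf n) hG
        (by linarith) hGa
      have hG1 : μ.real G ≤ 1 := measureReal_le_one
      have h2 : -Real.log 2 ≤ Real.log (μ.real G) := by
        rw [← Real.log_inv]
        apply Real.log_le_log (by norm_num)
        linarith
      rw [le_div_iff₀ hn0]
      have h3 : Real.log 2 ≤ ε * n := by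
        rw [div_le_iff₀ (by exact_mod_cast hε)] at hn
        linarith
      have h4 : 0 ≤ c * n := by positivity
      have hlog2 : 0 ≤ Real.log 2 := Real.log_nonneg (by norm_num)
      have h6 : c * n / 2 - Real.log 2 ≤ μ.real G * (c * n + Real.log (μ.real G)) := by
        have h7 : μ.real G * (c * n) ≥ 1 / 2 * (c * n) := mul_le_mul_of_nonneg_right hG2 h4
        have h8 : μ.real G * Real.log (μ.real G) ≥ -Real.log 2 := by
          have : Real.log (μ.real G) ≤ 0 := Real.log_nonpos (by linarith) hG1
          nlinarith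
        nlinarith
      have h9 : (c / 2 - ε) * n = c * n / 2 - ε * n := by ring
      rw [h9]
      linarith
    have h10 : ENNReal.ofReal (c / 2 - ε) ≤
        limsup (fun n : ℕ => ENNReal.ofReal (shannon μ (name T f n) / n)) atTop :=
      le_limsup_of_frequently_le hfr
    calc ENNReal.ofReal (c / 2) ≤ ENNReal.ofReal (c / 2 - ε) + ENNReal.ofReal ε := by
          rw [← ENNReal.ofReal_toReal (a := ENNReal.ofReal (c / 2 - ε) + ENNReal.ofReal ε)
            (by simp)]
          apply ENNReal.ofReal_le_ofReal
          rw [ENNReal.toReal_add (by simp) (by simp), ENNReal.toReal_ofReal']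
          rw [ENNReal.toReal_ofReal (by exact_mod_cast hε.le)]
          have := le_max_left (c / 2 - (ε : ℝ)) 0
          linarith
      _ ≤ _ := by
          gcongr
          simp
  refine hstep.trans ?_
  unfold ksEntropy
  exact le_iSup_of_le k (le_iSup_of_le f (le_iSup_of_le hf le_rfl))

end Vale.Agent.P108.H954
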