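import Vale.Agent.P108.H954.KSFinal
import Vale.Agent.P108.H504.Compose
import Vale.Agent.P108.H850.ZoneAt
import Vale.Agent.P108.Tor.Transfer

/-!
# P108: Kolmogorov-Sinai entropy of the standard map, unconditional
-/

open MeasureTheory Filter Set Topology
open scoped ENNReal

namespace Vale.Agent.P108.H954

open Vale.Agent.P108 Vale.Agent.P108.FT Vale.Agent.P109.KS

/-- The Kolmogorov-Sinai entropy of the standard map is at least `log k / 400` for large `k`. -/
theorem ks_main : ∃ k0 : ℝ, ∀ k ≥ k0,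
    ENNReal.ofReal (Real.log k / 400) ≤ ksEntropy mQ (T k) :=
  ks_main_of H850.zone_eventually H504.decor

/-- Positivity of the Kolmogorov-Sinai entropy. -/
theorem ks_pos : ∃ k0 : ℝ, ∀ k ≥ k0, 0 < ksEntropy mQ (T k) :=
  ks_pos_of H850.zone_eventually H504.decor

/-- The same on the torus, for all parameters of large modulus. -/
theorem ks_torus : ∃ k0 : ℝ, ∀ k : ℝ, k0 ≤ |k| → ENNReal.ofReal (Real.log |k| / 400) ≤
    ksEntropy (volume : Measure (UnitAddCircle × UnitAddCircle)) (Tor.stdMap k) := by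
  obtain ⟨k0, h⟩ := ks_main
  refine ⟨k0, fun k hk => ?_⟩
  have hC := (h |k| hk).trans (Tor.ksEntropy_torus_ge |k|)
  rcases le_total 0 k with h | h
  · rw [abs_of_nonneg h] at hC ⊢
    exact hC
  · rw [abs_of_nonpos h] at hC ⊢
    rwa [Tor.ksEntropy_neg] at hC

end Vale.Agent.P108.H954
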