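import Vale.Agent.P108.H954.Robust
import Vale.Agent.P108.Sk.Final

/-!
# P108: Kolmogorov-Sinai entropy of the standard map, from the remaining blocks
-/

open MeasureTheory Filter Set Topology
open scoped ENNReal

namespace Vale.Agent.P108.H954

open Vale.Agent.P108 Vale.Agent.P108.FT Vale.Agent.P108.Dyn
open Vale.Agent.P108.Sk (cb cβ Decor)

/-- The Kolmogorov-Sinai entropy of the standard map is at least `log k / 400` for large `k`. -/
theorem ks_main_of (hZ : ∃ c1 : ℝ, 0 < c1 ∧ ∀ᶠ k in atTop, H442.ZoneAt k c1 cb cβ)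
    (hdec : Decor) :
    ∃ k0 : ℝ, ∀ k ≥ k0, ENNReal.ofReal (Real.log k / 400) ≤ P109.KS.ksEntropy mQ (T k) :=
  ks_of_robust growRobust nearBound
    (Sk.eBound_of_peak (Por.peakBound_of_line (H442.peakLine_of_zone hZ))) Sk.ncBound Sk.equiB
    Sk.longCl hdec

/-- Positivity of the Kolmogorov-Sinai entropy. -/
theorem ks_pos_of (hZ : ∃ c1 : ℝ, 0 < c1 ∧ ∀ᶠ k in atTop, H442.ZoneAt k c1 cb cβ)
    (hdec : Decor) : ∃ k0 : ℝ, ∀ k ≥ k0, 0 < P109.KS.ksEntropy mQ (T k) := by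
  obtain ⟨k0, h⟩ := ks_main_of hZ hdec
  refine ⟨max k0 2, fun k hk => ?_⟩
  have h1 := h k ((le_max_left _ _).trans hk)
  refine lt_of_lt_of_le ?_ h1
  rw [ENNReal.ofReal_pos]
  have : 0 < Real.log k := Real.log_pos (lt_of_lt_of_le (by norm_num) ((le_max_right _ _).trans hk))
  positivity

end Vale.Agent.P108.H954
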