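import Vale.Agent.P108.H954.Count

/-!
# P108, KS entropy: the entropy from exponential closeness of pieces
-/

open MeasureTheory Filter Set Topology
open scoped ENNReal

namespace Vale.Agent.P108.H954

open Vale.Agent.P108 Vale.Agent.P108.FT Vale.Agent.P108.Dyn Vale.Agent.P108.H504 P108C

/-- The separation hypothesis at time `n`: two points of `G` on a vertical line with the same name,
the same bad set on `[0, n)` and `b ^ (-length)`-close at the start of each bad run are `ε`-close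
at time `1`. -/
def Sep (k : ℝ) (N : ℕ) [NeZero N] (b n : ℕ) (X : ℝ × ℝ → Set ℤ) (G : Set (ℝ × ℝ)) (ε : ℝ) : Prop :=
  ∀ z ∈ G, ∀ w ∈ G, z.1 = w.1 →
    P109.KS.name (T k) (cod N) n z = P109.KS.name (T k) (cod N) n w →
    (∀ i : ℤ, 0 ≤ i → i < n → (i ∈ X z ↔ i ∈ X w)) →
    (∀ p q : ℕ, p < q → q ≤ n → (∀ i : ℕ, p ≤ i → i < q → (i : ℤ) ∈ X z) →
      ((p : ℤ) - 1 ∉ X z ∨ p = 0) →
      |dy k z w p| < ((b : ℝ) ^ (q - p))⁻¹ ∧ |dy k z w (p + 1)| < ((b : ℝ) ^ (q - p))⁻¹) →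
    |dy k z w 1| ≤ ε

theorem ks_of_sep {k : ℝ} {N : ℕ} [NeZero N] {b : ℕ} (hb : 1 ≤ b) {X : ℝ × ℝ → Set ℤ}
    (hXm : ∀ i, MeasurableSet {z | i ∈ X z}) {η ρ A c : ℝ} (hη : 0 ≤ η) (hA : 0 ≤ A) (hc : 0 ≤ c)
    (hρ : Real.log 2 + 2 * η * Real.log b + c < ρ) (G : ℕ → Set (ℝ × ℝ))
    (hGm : ∀ n, MeasurableSet (G n)) (hGQ : ∀ n, G n ⊆ Q)
    (hGs : ∀ n, ∀ z ∈ G n, (ms (X z) 0 n : ℝ) ≤ η * n)
    (hG : ∃ᶠ n : ℕ in atTop, 1 / 2 ≤ mQ.real (G n) ∧
      Sep k N b n X (G n) (A * Real.exp (-(ρ * n)))) :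
    ENNReal.ofReal (c / 2) ≤ P109.KS.ksEntropy mQ (T k) := by
  have hb0 : (0 : ℝ) < b := by exact_mod_cast hb
  have hb1 : (1 : ℝ) ≤ b := by exact_mod_cast hb
  apply ksEntropy_ge (measurable_T k) (measurable_cod N) hc
  set g := ρ - (Real.log 2 + 2 * η * Real.log b + c) with hg
  have hg0 : 0 < g := by linarith
  have hev : ∀ᶠ n : ℕ in atTop, 6 * A / g ≤ n :=
    (tendsto_natCast_atTop_atTop (R := ℝ)).eventually_ge_atTop _
  refine (hG.and_eventually hev).mono ?_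
  rintro n ⟨⟨hG2, hsep⟩, hn⟩
  refine ⟨G n, hGm n, hG2, fun a => ?_⟩
  set s := ⌊η * n⌋₊ with hs
  have hηn : 0 ≤ η * n := by positivity
  have h1 := cyl_le (k := k) (N := N) hb (n := n) hXm (hGm n) (hGQ n) (s := s)
    (fun z hz => Nat.le_floor (hGs n z hz)) (ε := A * Real.exp (-(ρ * n))) (by positivity) hsep a
  refine h1.trans ?_
  have h2 : ((b : ℝ) ^ 2) ^ s ≤ Real.exp (2 * η * Real.log b * n) := by
    rw [← Real.exp_log (show (0 : ℝ) < ((b : ℝ) ^ 2) ^ s by positivity)]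
    apply Real.exp_le_exp.2
    rw [Real.log_pow, Real.log_pow]
    have h3 : (s : ℝ) ≤ η * n := Nat.floor_le hηn
    have h4 : 0 ≤ Real.log b := Real.log_nonneg hb1
    push_cast
    nlinarith
  have h5 : (2 : ℝ) ^ n = Real.exp (Real.log 2 * n) := by
    rw [mul_comm, Real.exp_nat_mul, Real.exp_log (by norm_num)]
  have h6 : 6 * A ≤ Real.exp (g * n) := by
    have h7 : 6 * A ≤ g * n := by
      rw [div_le_iff₀ hg0] at hn
      linarith
    linarith [Real.add_one_le_exp (g * n)]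
  calc (2 : ℝ) ^ n * ((b : ℝ) ^ 2) ^ s * (6 * (A * Real.exp (-(ρ * n))))
      ≤ Real.exp (Real.log 2 * n) * Real.exp (2 * η * Real.log b * n) *
        (6 * (A * Real.exp (-(ρ * n)))) := by
        rw [h5]; gcongr
    _ = (6 * A) * (Real.exp (Real.log 2 * n) * Real.exp (2 * η * Real.log b * n) *
        Real.exp (-(ρ * n))) := by ring
    _ ≤ Real.exp (g * n) * (Real.exp (Real.log 2 * n) * Real.exp (2 * η * Real.log b * n) *
        Real.exp (-(ρ * n))) := by gcongr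
    _ = Real.exp (-(c * n)) := by
        rw [← Real.exp_add, ← Real.exp_add, ← Real.exp_add]
        congr 1
        rw [hg]; ring

end Vale.Agent.P108.H954
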