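import Vale.Agent.P108.Dyn.Basic
import Vale.Agent.P108.H504.Cont
import Vale.Agent.P108.H954.Ent
import Mathlib.Analysis.SpecialFunctions.Trigonometric.Bounds

/-!
# P108, KS entropy: two orbits with the same name, mean slopes

Two points `z, w` of the square with the same name of length `n` for the coding by the first
coordinate with step `1/N` have orbits at distance `< 1/N` (mod 1) for `n` steps, and the
difference `y` of the fractional parts satisfies the linear recursion with the mean slopes.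
-/

open MeasureTheory Filter Set Topology

namespace Vale.Agent.P108.H954

open Vale.Agent.P108 Vale.Agent.P108.FT Vale.Agent.P108.Dyn Vale.Agent.P108.H504

/-! ### Mean slopes -/

lemma phi_add_int (k x : ℝ) (m : ℤ) : phi k (x + m) = phi k x + 2 * m := by
  unfold phi
  have : Real.sin (2 * Real.pi * (x + m)) = Real.sin (2 * Real.pi * x) := by
    rw [show 2 * Real.pi * (x + m) = 2 * Real.pi * x + m * (2 * Real.pi) by ring,
      Real.sin_add_int_mul_two_pi]
  rw [this]; ring

lemma a_add_int (k x : ℝ) (m : ℤ) : FT.a k (x + m) = FT.a k x := by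
  unfold FT.a
  have : Real.cos (2 * Real.pi * (x + m)) = Real.cos (2 * Real.pi * x) := by
    rw [show 2 * Real.pi * (x + m) = 2 * Real.pi * x + m * (2 * Real.pi) by ring,
      Real.cos_add_int_mul_two_pi]
  rw [this]

lemma a_fract (k x : ℝ) : FT.a k (Int.fract x) = FT.a k x := by
  have h := a_add_int k (Int.fract x) ⌊x⌋
  rw [Int.fract_add_floor] at h
  exact h.symm

lemma abs_a_sub_le {k : ℝ} (hk : 0 ≤ k) (x y : ℝ) :
    |FT.a k x - FT.a k y| ≤ 4 * Real.pi ^ 2 * k * |x - y| := by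
  have hpi := Real.pi_pos
  unfold FT.a
  have e : 2 + 2 * Real.pi * k * Real.cos (2 * Real.pi * x) -
      (2 + 2 * Real.pi * k * Real.cos (2 * Real.pi * y)) =
      2 * Real.pi * k * (Real.cos (2 * Real.pi * x) - Real.cos (2 * Real.pi * y)) := by ring
  rw [e, abs_mul, abs_of_nonneg (by positivity)]
  have h := Real.abs_cos_sub_cos_le (2 * Real.pi * x) (2 * Real.pi * y)
  have h2 : |2 * Real.pi * x - 2 * Real.pi * y| = 2 * Real.pi * |x - y| := by
    rw [← mul_sub, abs_mul, abs_of_nonneg (by positivity)]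
  rw [h2] at h
  calc 2 * Real.pi * k * |Real.cos (2 * Real.pi * x) - Real.cos (2 * Real.pi * y)|
      ≤ 2 * Real.pi * k * (2 * Real.pi * |x - y|) := by gcongr
    _ = _ := by ring

/-- the mean slope of `phi k` between `u` and `v` -/
noncomputable def sl (k u v : ℝ) : ℝ := if u = v then FT.a k u else (phi k u - phi k v) / (u - v)

lemma sl_mul (k u v : ℝ) : phi k u - phi k v = sl k u v * (u - v) := by
  unfold sl
  split_ifs with h
  · rw [h]; ring
  · rw [div_mul_cancel₀]
    exact sub_ne_zero.2 h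

lemma sl_near {k : ℝ} (hk : 0 ≤ k) (u v : ℝ) :
    |sl k u v - FT.a k u| ≤ 4 * Real.pi ^ 2 * k * |u - v| := by
  unfold sl
  split_ifs with h
  · simp [h]
  · have hmvt : ∃ c ∈ uIcc u v, FT.a k c = (phi k u - phi k v) / (u - v) := by
      rcases lt_or_gt_of_ne h with h1 | h1
      · obtain ⟨c, hc, hc2⟩ := exists_hasDerivAt_eq_slope (phi k) (FT.a k) h1
          (fun x _ => (hasDerivAt_phi k x).continuousAt.continuousWithinAt)
          (fun x _ => hasDerivAt_phi k x)
        refine ⟨c, ?_, ?_⟩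
        · rw [uIcc_of_le h1.le]; exact ⟨hc.1.le, hc.2.le⟩
        · rw [hc2, ← neg_sub (phi k u), ← neg_sub u, neg_div_neg_eq]
      · obtain ⟨c, hc, hc2⟩ := exists_hasDerivAt_eq_slope (phi k) (FT.a k) h1
          (fun x _ => (hasDerivAt_phi k x).continuousAt.continuousWithinAt)
          (fun x _ => hasDerivAt_phi k x)
        refine ⟨c, ?_, hc2⟩
        rw [uIcc_of_ge h1.le]; exact ⟨hc.1.le, hc.2.le⟩
    obtain ⟨c, hc, hc2⟩ := hmvt
    rw [← hc2]
    refine (abs_a_sub_le hk c u).trans ?_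
    have : |c - u| ≤ |u - v| := by
      rw [abs_sub_comm u v]
      exact abs_sub_left_of_mem_uIcc hc
    gcongr

/-! ### The coding by the first coordinate -/

/-- coding by the first coordinate, step `1/N` -/
noncomputable def cod (N : ℕ) [NeZero N] (z : ℝ × ℝ) : Fin N := Fin.ofNat N ⌊N * Int.fract z.1⌋₊

lemma measurable_cod (N : ℕ) [NeZero N] : Measurable (cod N) := by
  unfold cod
  have h1 : Measurable (fun z : ℝ × ℝ => ⌊(N : ℝ) * Int.fract z.1⌋₊) := by fun_prop
  exact (measurable_from_top (f := fun n : ℕ => Fin.ofNat N n)).comp h1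

lemma cod_close {N : ℕ} [NeZero N] {z w : ℝ × ℝ} (h : cod N z = cod N w) :
    |Int.fract z.1 - Int.fract w.1| < 1 / N := by
  have hN : (0 : ℝ) < N := by exact_mod_cast Nat.pos_of_ne_zero (NeZero.ne N)
  have hlt : ∀ x : ℝ, ⌊(N : ℝ) * Int.fract x⌋₊ < N := by
    intro x
    rw [Nat.floor_lt (mul_nonneg hN.le (Int.fract_nonneg x))]
    have := Int.fract_lt_one x
    nlinarith
  have h1 : ⌊(N : ℝ) * Int.fract z.1⌋₊ = ⌊(N : ℝ) * Int.fract w.1⌋₊ := by
    have h2 := congrArg Fin.val h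
    simp only [cod, Fin.val_ofNat] at h2
    rwa [Nat.mod_eq_of_lt (hlt _), Nat.mod_eq_of_lt (hlt _)] at h2
  have hz0 := Nat.floor_le (mul_nonneg hN.le (Int.fract_nonneg z.1))
  have hz1 := Nat.lt_floor_add_one ((N : ℝ) * Int.fract z.1)
  have hw0 := Nat.floor_le (mul_nonneg hN.le (Int.fract_nonneg w.1))
  have hw1 := Nat.lt_floor_add_one ((N : ℝ) * Int.fract w.1)
  rw [h1] at hz0 hz1
  rw [lt_div_iff₀ hN, ← abs_of_pos hN, ← abs_mul, abs_lt]
  constructor <;> nlinarith

/-- difference of the fractional parts of the orbits -/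
noncomputable def dy (k : ℝ) (z w : ℝ × ℝ) (i : ℤ) : ℝ :=
  Int.fract (orb k z i) - Int.fract (orb k w i)

/-- mean slopes between the two orbits -/
noncomputable def am (k : ℝ) (z w : ℝ × ℝ) (i : ℤ) : ℝ :=
  sl k (Int.fract (orb k z i)) (Int.fract (orb k w i))

lemma am_near {k : ℝ} (hk : 0 ≤ k) (z w : ℝ × ℝ) (i : ℤ) :
    |am k z w i - FT.a k (orb k z i)| ≤ 4 * Real.pi ^ 2 * k * |dy k z w i| := by
  have := sl_near hk (Int.fract (orb k z i)) (Int.fract (orb k w i))
  rwa [a_fract] at this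

lemma fst_iterate {k : ℝ} {z : ℝ × ℝ} (hz : z ∈ Q) (n : ℕ) :
    Int.fract ((T k)^[n] z).1 = Int.fract (orb k z n) := by
  rw [← Tz_natCast k n hz]
  unfold Tz fr orb
  simp

lemma dy_lt_of_name {k : ℝ} {N : ℕ} [NeZero N] {z w : ℝ × ℝ} (hz : z ∈ Q) (hw : w ∈ Q) {n : ℕ}
    (h : P109.KS.name (T k) (cod N) n z = P109.KS.name (T k) (cod N) n w) {i : ℤ} (h0 : 0 ≤ i)
    (hi : i < n) : |dy k z w i| < 1 / N := by
  obtain ⟨j, rfl⟩ := Int.eq_ofNat_of_zero_le h0
  have hj : j < n := by exact_mod_cast hi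
  have h1 := congrFun h ⟨j, hj⟩
  simp only [P109.KS.name] at h1
  have h2 := cod_close h1
  rwa [fst_iterate hz, fst_iterate hw] at h2

/-- recursion for the difference, as long as it stays small -/
lemma dy_rec {k δ : ℝ} (hk : 0 ≤ k) (hδ : (4 + 2 * Real.pi * k) * δ ≤ 1) {z w : ℝ × ℝ} {i : ℤ}
    (h0 : |dy k z w (i - 1)| < δ) (h1 : |dy k z w i| < δ) (h2 : |dy k z w (i + 1)| < δ) :
    dy k z w (i + 1) = am k z w i * dy k z w i - dy k z w (i - 1) := by
  have hpi := Real.pi_pos
  set u := Int.fract (orb k z i) with hu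
  set v := Int.fract (orb k w i) with hv
  have hsl : phi k u - phi k v = am k z w i * dy k z w i := sl_mul k u v
  -- the recursion modulo integers
  have hz := orb_rec k z i
  have hw := orb_rec k w i
  have ez : phi k (orb k z i) = phi k u + 2 * (⌊orb k z i⌋ : ℤ) := by
    rw [hu, ← phi_add_int, Int.fract_add_floor]
  have ew : phi k (orb k w i) = phi k v + 2 * (⌊orb k w i⌋ : ℤ) := by
    rw [hv, ← phi_add_int, Int.fract_add_floor]
  obtain ⟨m, hm⟩ : ∃ m : ℤ, dy k z w (i + 1) + dy k z w (i - 1) - (phi k u - phi k v) = m := by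
    refine ⟨2 * ⌊orb k z i⌋ - 2 * ⌊orb k w i⌋ - (⌊orb k z (i + 1)⌋ - ⌊orb k w (i + 1)⌋) -
      (⌊orb k z (i - 1)⌋ - ⌊orb k w (i - 1)⌋), ?_⟩
    have f1 := Int.fract_add_floor (orb k z (i + 1))
    have f2 := Int.fract_add_floor (orb k w (i + 1))
    have f3 := Int.fract_add_floor (orb k z (i - 1))
    have f4 := Int.fract_add_floor (orb k w (i - 1))
    unfold dy
    push_cast
    linarith
  have hδ0 : 0 < δ := (abs_nonneg _).trans_lt h0
  have hb : |phi k u - phi k v| ≤ (2 + 2 * Real.pi * k) * δ := by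
    have hlip : |sl k u v| ≤ 2 + 2 * Real.pi * k := by
      unfold sl
      split_ifs with h
      · have := abs_a_le k u
        rwa [abs_of_nonneg hk] at this
      · rw [abs_div, div_le_iff₀ (abs_pos.2 (sub_ne_zero.2 h))]
        unfold phi
        have e : 2 * u + k * Real.sin (2 * Real.pi * u) - (2 * v + k * Real.sin (2 * Real.pi * v)) =
            2 * (u - v) + k * (Real.sin (2 * Real.pi * u) - Real.sin (2 * Real.pi * v)) := by ring
        rw [e]
        have hs := Real.abs_sin_sub_sin_le (2 * Real.pi * u) (2 * Real.pi * v)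
        have h3 : |2 * Real.pi * u - 2 * Real.pi * v| = 2 * Real.pi * |u - v| := by
          rw [← mul_sub, abs_mul, abs_of_nonneg (by positivity)]
        rw [h3] at hs
        calc |2 * (u - v) + k * (Real.sin (2 * Real.pi * u) - Real.sin (2 * Real.pi * v))|
            ≤ |2 * (u - v)| + |k * (Real.sin (2 * Real.pi * u) - Real.sin (2 * Real.pi * v))| :=
              abs_add_le _ _
          _ = 2 * |u - v| + k * |Real.sin (2 * Real.pi * u) - Real.sin (2 * Real.pi * v)| := by
              rw [abs_mul, abs_mul, abs_of_nonneg hk, abs_two]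
          _ ≤ 2 * |u - v| + k * (2 * Real.pi * |u - v|) := by gcongr
          _ = (2 + 2 * Real.pi * k) * |u - v| := by ring
    rw [hsl]
    calc |am k z w i * dy k z w i| = |am k z w i| * |dy k z w i| := abs_mul _ _
      _ ≤ (2 + 2 * Real.pi * k) * δ := by
          apply mul_le_mul hlip h1.le (abs_nonneg _) (by positivity)
  have hlt : |(m : ℝ)| < 1 := by
    rw [← hm]
    calc |dy k z w (i + 1) + dy k z w (i - 1) - (phi k u - phi k v)|
        ≤ |dy k z w (i + 1) + dy k z w (i - 1)| + |phi k u - phi k v| := abs_sub _ _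
      _ ≤ |dy k z w (i + 1)| + |dy k z w (i - 1)| + |phi k u - phi k v| := by
          gcongr
          exact abs_add_le _ _
      _ < δ + δ + (2 + 2 * Real.pi * k) * δ := by linarith
      _ = (4 + 2 * Real.pi * k) * δ := by ring
      _ ≤ 1 := hδ
  have hm0 : m = 0 := by
    have : |m| < 1 := by exact_mod_cast hlt
    exact Int.abs_lt_one_iff.1 this
  rw [hm0, hsl] at hm
  push_cast at hm
  linarith

/-- two points with the same name: `dy` solves the linear recursion with the mean slopes -/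
lemma isSol_dy {k δ : ℝ} (hk : 0 ≤ k) (hδ : (4 + 2 * Real.pi * k) * δ ≤ 1) {z w : ℝ × ℝ} {n : ℕ}
    (h : ∀ i : ℤ, 0 ≤ i → i < n → |dy k z w i| < δ) :
    IsSol (am k z w) 1 (n - 2) (dy k z w) := by
  intro j h1 h2
  exact dy_rec hk hδ (h _ (by omega) (by omega)) (h _ (by omega) (by omega))
    (h _ (by omega) (by omega))

/-- on a vertical line, `dy` is a multiple of the Dirichlet solution -/
lemma dy_eq {k δ : ℝ} (hk : 0 ≤ k) (hδ : (4 + 2 * Real.pi * k) * δ ≤ 1) {z w : ℝ × ℝ} {n : ℕ}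
    (h : ∀ i : ℤ, 0 ≤ i → i < n → |dy k z w i| < δ) (hzw : z.1 = w.1) {j : ℤ} (h1 : 1 ≤ j)
    (h2 : j ≤ n - 1) : dy k z w j = dy k z w 1 * D (am k z w) 1 (j - 1) := by
  have h0 : dy k z w 0 = 0 := by
    unfold dy
    rw [orb_zero, orb_zero, hzw, sub_self]
  have h3 := (isSol_dy hk hδ h).eq' h1 (by omega)
  rw [show (1 : ℤ) - 1 = 0 by norm_num, h0] at h3
  rw [h3]
  ring

/-- the second coordinates of two points on a vertical line -/
lemma snd_sub {k : ℝ} {z w : ℝ × ℝ} (hz : z ∈ Q) (hw : w ∈ Q) (hzw : z.1 = w.1) :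
    ∃ m : ℤ, (m = -1 ∨ m = 0 ∨ m = 1) ∧ z.2 - w.2 = dy k z w 1 + m := by
  have e : z.2 - w.2 = orb k z 1 - orb k w 1 := by
    have h1 : ∀ z : ℝ × ℝ, orb k z 1 = z.1 + z.2 + k * Real.sin (2 * Real.pi * z.1) := by
      intro z
      unfold orb
      rw [Fz_one]
      rfl
    rw [h1, h1, hzw]; ring
  have f1 := Int.fract_add_floor (orb k z 1)
  have f2 := Int.fract_add_floor (orb k w 1)
  refine ⟨⌊orb k z 1⌋ - ⌊orb k w 1⌋, ?_, ?_⟩
  · have hz2 : z.2 ∈ Ico (0 : ℝ) 1 := hz.2
    have hw2 : w.2 ∈ Ico (0 : ℝ) 1 := hw.2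
    have g1 := Int.fract_nonneg (orb k z 1)
    have g2 := Int.fract_lt_one (orb k z 1)
    have g3 := Int.fract_nonneg (orb k w 1)
    have g4 := Int.fract_lt_one (orb k w 1)
    have h3 : ((⌊orb k z 1⌋ - ⌊orb k w 1⌋ : ℤ) : ℝ) < 2 := by
      push_cast
      linarith [hz2.2, hw2.1]
    have h4 : (-2 : ℝ) < ((⌊orb k z 1⌋ - ⌊orb k w 1⌋ : ℤ) : ℝ) := by
      push_cast
      linarith [hz2.1, hw2.2]
    have h5 : ⌊orb k z 1⌋ - ⌊orb k w 1⌋ < 2 := by exact_mod_cast h3
    have h6 : -2 < ⌊orb k z 1⌋ - ⌊orb k w 1⌋ := by exact_mod_cast h4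
    omega
  · unfold dy
    push_cast
    linarith

end Vale.Agent.P108.H954
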