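import Vale.Agent.P108.H954.Sep2
import Vale.Agent.P108.H462.Cone2

/-!
# P108, KS entropy: robust growth, from helper462's growth theorem
-/

open Set

namespace Vale.Agent.P108.H954

open P108C
open Vale.Agent.P108.H462
open Vale.Agent.P108.Sk (cβ ce cδ cd ca cP c0 cc cZ s0 Low Crit NC Peak Defect Bset Setting GoodWin
  LongZ DetCone)

variable {k s : ℝ} {a a' : ℤ → ℝ} {u w : ℤ} {X : Set ℤ}

theorem sq_env64 (hk : Big k) {r ℓ : ℕ} {y len : ℝ} (hr : 100000 ≤ r) (hℓ : 1000000 * ℓ ≤ 2 * r)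
    (hy : y ≠ 0) (hlen : (r : ℝ) ≤ len) (hg : 99989 / 100000 * len * Real.log k ≤ Real.log |y|) :
    64 * (9 * k) ^ ℓ * ((9 * k) ^ (ℓ + 3) * k ^ (ca * ((2 * r : ℕ) : ℝ))) ≤ y ^ 2 := by
  have hk0 := hk.k0
  have hkp : 0 < k ^ (ca * ((2 * r : ℕ) : ℝ)) := Real.rpow_pos_of_pos hk0 _
  have hB0 : 0 < 9 * k := by linarith
  have hy0 : 0 < |y| := abs_pos.2 hy
  rw [← sq_abs y, ← Real.log_le_log_iff (by positivity) (by positivity),
    Real.log_mul (by positivity) (by positivity), Real.log_mul (by norm_num) (by positivity),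
    Real.log_mul (by positivity) hkp.ne', Real.log_pow, Real.log_pow, Real.log_rpow hk0,
    Real.log_pow]
  have h8 : Real.log 64 ≤ 7 := by
    rw [show (64 : ℝ) = 2 ^ 6 by norm_num, Real.log_pow]
    have := Real.log_two_lt_d9
    push_cast
    linarith
  have h1 := num_sq (r := r) (len := len) (l := ℓ) (l9 := Real.log (9 * k)) (l8 := Real.log 64)
    (ly := Real.log |y|) hk.x (by exact_mod_cast hr) (Nat.cast_nonneg _) (by exact_mod_cast hℓ)
    hk.log_9k h8 hlen hg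
  have e1 : ((ℓ + 3 : ℕ) : ℝ) = ℓ + 3 := by push_cast; ring
  have e2 : ((2 * r : ℕ) : ℝ) = 2 * r := by push_cast; ring
  have e3 : ((2 : ℕ) : ℝ) = 2 := by norm_num
  rw [e1, e2, e3]
  exact h1

theorem hBg4 (h : Big k) : 9 * k ≤ (k ^ cβ / 4) ^ 101 := by
  have hk := h.k0
  have hkβ := h.kβ
  have h1 : 0 < k ^ cβ / 4 := by linarith
  rw [← Real.log_le_log_iff (by linarith) (by positivity), Real.log_pow,
    Real.log_div (by linarith) (by norm_num), Real.log_rpow hk]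
  have h2 := h.log_9k
  have h3 := Real.log_two_lt_d9
  have h4 := h.x
  have h5 : Real.log 4 = 2 * Real.log 2 := by
    rw [show (4 : ℝ) = 2 ^ 2 by norm_num, Real.log_pow]; norm_num
  rw [h5]
  unfold cβ
  push_cast
  nlinarith

/-- the parameters for the perturbed sequence -/
noncomputable def theP4 (k : ℝ) (hk : Big k) : Par2 where
  g := k ^ cβ / 4
  B := 9 * k
  M := 101
  c := cc
  c0 := c0
  Λ := 2000000
  N0 := 1000000000
  rad := radF k
  dep := fun ℓ => 4 * depF k ℓ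
  hg := by have := hk.kβ; linarith
  hgB := by have := hk.kβ_le; have := hk.k0; linarith
  hBg := hBg4 hk
  hc := by unfold cc; norm_num
  hcc := by unfold cc c0; norm_num
  hc0 := by unfold c0; norm_num
  hN := by norm_num
  hrad1 := (theP k hk).hrad1
  hrad2 := (theP k hk).hrad2
  hdep1 := fun ℓ hℓ => by
    have h : 1 ≤ depF k ℓ := (theP k hk).hdep1 ℓ hℓ
    linarith
  hdep2 := fun ℓ hℓ => by
    have hk1 := hk.k1
    have hk0 := hk.k0
    have hB : (1 : ℝ) ≤ 9 * k := by linarith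
    unfold depF
    split_ifs with h
    · obtain ⟨l, h1, h2, h3⟩ := radF_spec hk h
      have h4 : k ^ (ca * ((2 * radF k ℓ : ℕ) : ℝ)) ≤ (9 * k) ^ (1200000 * ℓ) := by
        calc k ^ (ca * ((2 * radF k ℓ : ℕ) : ℝ)) ≤ k ^ ((1200000 * ℓ : ℕ) : ℝ) := by
              apply Real.rpow_le_rpow_of_exponent_le (by linarith)
              have h5 : radF k ℓ ≤ 1000000 * ℓ := by rw [h1]; unfold cP at h3; omega
              have h6 : (radF k ℓ : ℝ) ≤ 1000000 * ℓ := by exact_mod_cast h5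
              unfold ca
              push_cast
              linarith
          _ = k ^ (1200000 * ℓ) := Real.rpow_natCast _ _
          _ ≤ (9 * k) ^ (1200000 * ℓ) := pow_le_pow_left₀ hk0.le (by linarith) _
      calc 2 * (4 * ((9 * k) ^ (ℓ + 3) * k ^ (ca * ((2 * radF k ℓ : ℕ) : ℝ))))
          = 8 * ((9 * k) ^ (ℓ + 3) * k ^ (ca * ((2 * radF k ℓ : ℕ) : ℝ))) := by ring
        _ ≤ (9 * k) * ((9 * k) ^ (ℓ + 3) * (9 * k) ^ (1200000 * ℓ)) := by
            gcongr
            linarith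
        _ = (9 * k) ^ (ℓ + 3 + 1200000 * ℓ + 1) := by ring
        _ ≤ (9 * k) ^ (2000000 * ℓ) := pow_le_pow_right₀ hB (by omega)
    · calc (2 : ℝ) * (4 * 1) ≤ 9 * k := by linarith
        _ = (9 * k) ^ 1 := (pow_one _).symm
        _ ≤ (9 * k) ^ (2000000 * ℓ) := pow_le_pow_right₀ hB (by omega)

/-- the non-peak inequalities for the sequence of the setting, with a better constant -/
theorem nonPeaky64 (hk : Big k) (S : Setting k s a u w X) {p q i j : ℤ} (hI : u ≤ i) (hJ : j ≤ w)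
    (hpq : p < q) (hrun : Run X p q) (hpX : p - 1 ∉ X) (hqX : q ∉ X)
    (r1 : (radF k (q - p).toNat : ℤ) ≤ p - i) (r2 : p - i ≤ 2 * (radF k (q - p).toNat : ℤ))
    (r3 : (radF k (q - p).toNat : ℤ) ≤ j - q) (r4 : j - q ≤ 2 * (radF k (q - p).toNat : ℤ))
    (hL4 : LG (4 * cc) X i p) (hR4 : RG (4 * cc) X q j)
    (HL : Hyp a X (9 * k) 2000000 c0 i p) (HR : Hyp a X (9 * k) 2000000 c0 q j) :
    |D a i p| * |D a q j| ≤ |D a i j| * depF k (q - p).toNat ∧
      64 * (9 * k) ^ (q - p).toNat * depF k (q - p).toNat ≤ (D a i p) ^ 2 ∧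
      64 * (9 * k) ^ (q - p).toNat * depF k (q - p).toNat ≤ (D a q j) ^ 2 ∧
      j - i ≤ 4000001 * (q - p) := by
  have h0 := (nonPeaky hk S p q i j hI hJ hpq hrun hpX hqX r1 r2 r3 r4 hL4 hR4 HL HR).1
  change |D a i p| * |D a q j| ≤ |D a i j| * depF k (q - p).toNat at h0
  have hk1 := hk.k1
  have hk0 := hk.k0
  -- the length and the radius
  obtain ⟨ℓ, hℓ⟩ := Int.le.dest hpq.le
  have hqp : (q - p).toNat = ℓ := by omega
  rw [hqp] at r1 r2 r3 r4 h0 ⊢
  have hℓ1 : 1 ≤ ℓ := by omega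
  have hrad1 : 1 ≤ radF k ℓ := (theP k hk).hrad1 ℓ hℓ1
  have hsl : s0 k ≤ ℓ := by
    have := long_run S hpq hrun hpX hqX (by omega) (by omega)
    omega
  obtain ⟨l, hl1, hl2, hl3⟩ := radF_spec hk hsl
  have hs0g := hk.s0_ge
  refine ⟨h0, ?_⟩
  rw [depF_eq hsl]
  generalize radF k ℓ = r at *
  have hr5 : 100000 ≤ r := by
    rw [hl1]
    calc 100000 ≤ s0 k * 1 := by omega
      _ ≤ s0 k * 2 ^ l := Nat.mul_le_mul_left _ Nat.one_le_two_pow
  have hpow1 : s0 k * 2 ^ (l + 1) = 2 * r := by rw [hl1, pow_succ]; ring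
  have hpow2 : s0 k * 2 ^ (l + 2) = 4 * r := by rw [hl1, pow_succ, pow_succ]; ring
  rw [hpow1] at hl2
  have hℓr : 1000000 * ℓ ≤ 2 * r := hl2
  have hrℓ : r < 1000000 * ℓ := by rw [hl1]; exact hl3
  -- growth of the environments
  have hlenL : (r : ℝ) ≤ ((p - i : ℤ) : ℝ) := by exact_mod_cast r1
  have hlenR : (r : ℝ) ≤ ((j - q : ℤ) : ℝ) := by exact_mod_cast r3
  have hNL : (ms (NC k s a) i p : ℝ) ≤ 4 / 1000000 * ((p - i : ℤ) : ℝ) := by
    have h1 := ms_nc_le S (t := p - 1) (by omega) (by omega) hpX (o := p) (l := l + 2) (i := i)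
      (j := p) (by rw [hpow2, abs_le]; constructor <;> push_cast <;> omega)
      (by rw [hpow2]; push_cast; omega) (by rw [hpow2]; push_cast; omega)
    rw [hpow2] at h1
    have h2 : cδ * ((4 * r : ℕ) : ℝ) = 4 / 1000000 * r := by unfold cδ; push_cast; ring
    rw [h2] at h1
    exact h1.trans (mul_le_mul_of_nonneg_left hlenL (by norm_num))
  have hNR : (ms (NC k s a) q j : ℝ) ≤ 4 / 1000000 * ((j - q : ℤ) : ℝ) := by
    have h1 := ms_nc_le S (t := p - 1) (by omega) (by omega) hpX (o := p) (l := l + 2) (i := q)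
      (j := j) (by rw [hpow2, abs_le]; constructor <;> push_cast <;> omega)
      (by rw [hpow2]; push_cast; omega) (by rw [hpow2]; push_cast; omega)
    rw [hpow2] at h1
    have h2 : cδ * ((4 * r : ℕ) : ℝ) = 4 / 1000000 * r := by unfold cδ; push_cast; ring
    rw [h2] at h1
    exact h1.trans (mul_le_mul_of_nonneg_left hlenR (by norm_num))
  obtain ⟨hDL, hGL⟩ := env_growth hk S hI (by omega) (by omega) HL
    (hL4 i le_rfl (by omega)) hNL
  obtain ⟨hDR, hGR⟩ := env_growth hk S (by omega) (by omega) hJ HR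
    (hR4 j (by omega) le_rfl) hNR
  exact ⟨sq_env64 hk hr5 hℓr hDL hlenL hGL, sq_env64 hk hr5 hℓr hDR hlenR hGR, by omega⟩

/-- real arithmetic: the environment of the perturbed sequence is still large -/
lemma sq_pert {x y G dep ε : ℝ} (hG : 1 ≤ G) (hdep : 1 ≤ dep) (h1 : 64 * G * dep ≤ x ^ 2)
    (h2 : |y - x| ≤ ε) (hε : ε ≤ 1 / 4) : 8 * G * (4 * dep) ≤ y ^ 2 := by
  have hGd : 1 ≤ G * dep := one_le_mul_of_one_le_of_one_le hG hdep
  have hx1 : 1 ≤ |x| := by
    by_contra h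
    push Not at h
    have h3 : x ^ 2 < 1 := by
      rw [← sq_abs]
      have := abs_nonneg x
      nlinarith
    nlinarith
  have h3 : 3 / 4 * |x| ≤ |y| := by
    have h4 := abs_sub_abs_le_abs_sub x y
    rw [abs_sub_comm] at h4
    linarith
  have h5 : (3 / 4 * |x|) ^ 2 ≤ |y| ^ 2 := pow_le_pow_left₀ (by positivity) h3 2
  rw [sq_abs, mul_pow, sq_abs] at h5
  nlinarith

/-- **Robust growth.** -/
theorem growRobust : GrowRobust 2000000 4000001 := by
  obtain ⟨k0, hk0⟩ := exists_big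
  refine ⟨k0, fun k hk s a a' u w X S hb' hclose hrunc hgood => ?_⟩
  have hb := hk0 k hk
  have hk1 := hb.k1
  have hkpos := hb.k0
  have hB2 : (2 : ℝ) ≤ 9 * k := by linarith
  have hB1 : (1 : ℝ) ≤ 9 * k := by linarith
  have hg := good_of_goodWin hgood
  rw [sub_add_cancel] at hg
  have hcl : ∀ t, u ≤ t → t < w → t ∉ X → 2 * (theP4 k hb).g ≤ |a' t| := by
    intro t h1 h2 h3
    have h4 := H462.clean_of_notMem S h1 h2 h3
    have hβ := hb.kβ
    have h5 : k ^ cβ ≤ |a t| :=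
      (le_mul_of_one_le_left (by linarith) (by linarith [S.hs0])).trans h4
    have h6 := hclose t h1 h2
    have h7 := abs_sub_abs_le_abs_sub (a t) (a' t)
    rw [abs_sub_comm] at h7
    change 2 * (k ^ cβ / 4) ≤ |a' t|
    linarith
  refine hyp_of_nonPeaky2 (theP4 k hb) (n := (w - u).toNat) (I := u) (J := w) (by omega)
    (S.closed _) hcl hb' ?_ le_rfl le_rfl hg
  intro p q i j hI hJ hpq hrun hpX hqX r1 r2 r3 r4 hL4 hR4 HL HR
  change (radF k (q - p).toNat : ℤ) ≤ p - i at r1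
  change p - i ≤ 2 * (radF k (q - p).toNat : ℤ) at r2
  change (radF k (q - p).toNat : ℤ) ≤ j - q at r3
  change j - q ≤ 2 * (radF k (q - p).toNat : ℤ) at r4
  change LG (4 * cc) X i p at hL4
  change RG (4 * cc) X q j at hR4
  change Hyp a' X (9 * k) 2000000 c0 i p at HL
  change Hyp a' X (9 * k) 2000000 c0 q j at HR
  have hℓ1 : 1 ≤ (q - p).toNat := by omega
  have hrad1 : 1 ≤ radF k (q - p).toNat := (theP k hb).hrad1 _ hℓ1
  obtain ⟨h1, h2, h3, h4⟩ := nonPeaky64 hb S hI hJ hpq hrun hpX hqX r1 r2 r3 r4 hL4 hR4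
    (hyp_of_setting hb S hI (by omega) HL.1) (hyp_of_setting hb S (by omega) hJ HR.1)
  have hdep1 : 1 ≤ depF k (q - p).toNat := (theP k hb).hdep1 _ hℓ1
  have hdep2 : 2 * depF k (q - p).toNat ≤ (9 * k) ^ (2000000 * (q - p).toNat) :=
    (theP k hb).hdep2 _ hℓ1
  have hcl2 := hrunc p q i j hI (by omega) hpq (by omega) hJ hrun hpX (by exact_mod_cast h4)
  change |D a' i p| * |D a' q j| ≤ |D a' i j| * (4 * depF k (q - p).toNat) ∧
    8 * (9 * k) ^ (q - p).toNat * (4 * depF k (q - p).toNat) ≤ (D a' i p) ^ 2 ∧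
    8 * (9 * k) ^ (q - p).toNat * (4 * depF k (q - p).toNat) ≤ (D a' q j) ^ 2
  set ℓ := (q - p).toNat with hℓ
  set dep := depF k ℓ with hdep
  set σ : ℝ := ((9 * k) ^ (4 * 4000001 * ℓ))⁻¹ with hσ
  have hσ0 : 0 < σ := by positivity
  have hσ1 : ∀ t, i ≤ t → t < j → |a' t - a t| ≤ σ := by
    intro t ht1 ht2
    have := hcl2 t ht1 ht2
    rw [hσ, inv_eq_one_div, le_div_iff₀ (by positivity)]
    exact this
  have hwl : j - i ≤ ((4000001 * ℓ : ℕ) : ℤ) := by push_cast; omega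
  have hab : ∀ t, i ≤ t → t < j → |a t| + 1 ≤ 9 * k := fun t _ _ => abs_add_one_le hb S t
  have hab' : ∀ t, i ≤ t → t < j → |a' t| + 1 ≤ 9 * k := fun t h1 h2 =>
    hb' t (by omega) (by omega)
  have hsmall : (9 * k) ^ (2 * (4000001 * ℓ)) * σ * (4 * dep) ≤ 1 := by
    have e : (9 * k) ^ (4 * 4000001 * ℓ) =
        (9 * k) ^ (2 * (4000001 * ℓ)) * (9 * k) ^ (2 * (4000001 * ℓ)) := by
      rw [← pow_add]; congr 1; ring
    have h5 : 4 * dep ≤ (9 * k) ^ (2 * (4000001 * ℓ)) := by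
      calc 4 * dep = 2 * (2 * dep) := by ring
        _ ≤ (9 * k) * (9 * k) ^ (2000000 * ℓ) := by gcongr
        _ = (9 * k) ^ (2000000 * ℓ + 1) := by rw [pow_succ]; ring
        _ ≤ (9 * k) ^ (2 * (4000001 * ℓ)) := pow_le_pow_right₀ hB1 (by omega)
    have hp : 0 < (9 * k) ^ (2 * (4000001 * ℓ)) := by positivity
    rw [hσ, e]
    generalize (9 * k) ^ (2 * (4000001 * ℓ)) = Z at *
    have e2 : Z * (Z * Z)⁻¹ * (4 * dep) = 4 * dep / Z := by
      field_simp
    rw [e2, div_le_one hp]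
    exact h5
  have hG1 : (1 : ℝ) ≤ (9 * k) ^ ℓ := one_le_pow₀ hB1
  have hε4 : (9 * k) ^ (2 * (4000001 * ℓ)) * σ ≤ 1 / 4 := by
    have h6 : 0 ≤ (9 * k) ^ (2 * (4000001 * ℓ)) * σ := by positivity
    nlinarith
  have hone : ∀ x : ℝ, 64 * (9 * k) ^ ℓ * dep ≤ x ^ 2 → 1 ≤ |x| := by
    intro x hx
    by_contra h
    push Not at h
    have h3 : x ^ 2 < 1 := by
      rw [← sq_abs]
      have := abs_nonneg x
      nlinarith
    nlinarith [one_le_mul_of_one_le_of_one_le hG1 hdep1]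
  refine ⟨?_, ?_, ?_⟩
  · exact transfer hB2 hσ0.le (by omega) hpq.le (by omega) hwl hab hab' hσ1 hdep1 hsmall
      (hone _ h2) (hone _ h3) h1
  · exact sq_pert hG1 hdep1 h2 (abs_D462_sub_le hB2 hσ0.le (by omega : p - i ≤ _)
      (fun t x y => hab t x (by omega)) (fun t x y => hab' t x (by omega))
      (fun t x y => hσ1 t x (by omega))) hε4
  · exact sq_pert hG1 hdep1 h3 (abs_D462_sub_le hB2 hσ0.le (by omega : j - q ≤ _)
      (fun t x y => hab t (by omega) y) (fun t x y => hab' t (by omega) y)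
      (fun t x y => hσ1 t (by omega) y)) hε4

end Vale.Agent.P108.H954
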