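import Vale.Agent.P108.H954.KSMain
import Vale.Agent.P108.H504.Det3

/-!
# P108, KS entropy: perturbation of the non-peak property, and propagation of closeness
-/

open MeasureTheory Filter Set Topology
open scoped ENNReal

namespace Vale.Agent.P108.H954

open Vale.Agent.P108 Vale.Agent.P108.FT Vale.Agent.P108.Dyn Vale.Agent.P108.H504 P108C

/-! ### the mean slopes are bounded -/

lemma abs_sl_le {k : ℝ} (hk : 0 ≤ k) (u v : ℝ) : |sl k u v| ≤ 2 + 2 * Real.pi * k := by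
  have hpi := Real.pi_pos
  unfold sl
  split_ifs with h
  · have := abs_a_le k u
    rwa [abs_of_nonneg hk] at this
  · rw [abs_div, div_le_iff₀ (abs_pos.2 (sub_ne_zero.2 h))]
    unfold phi
    have e : 2 * u + k * Real.sin (2 * Real.pi * u) - (2 * v + k * Real.sin (2 * Real.pi * v)) =
        2 * (u - v) + k * (Real.sin (2 * Real.pi * u) - Real.sin (2 * Real.pi * v)) := by ring
    rw [e]
    have hs := Real.abs_sin_sub_sin_le (2 * Real.pi * u) (2 * Real.pi * v)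
    have h3 : |2 * Real.pi * u - 2 * Real.pi * v| = 2 * Real.pi * |u - v| := by
      rw [← mul_sub, abs_mul, abs_of_nonneg (by positivity)]
    rw [h3] at hs
    calc |2 * (u - v) + k * (Real.sin (2 * Real.pi * u) - Real.sin (2 * Real.pi * v))|
        ≤ |2 * (u - v)| + |k * (Real.sin (2 * Real.pi * u) - Real.sin (2 * Real.pi * v))| :=
          abs_add_le _ _
      _ = 2 * |u - v| + k * |Real.sin (2 * Real.pi * u) - Real.sin (2 * Real.pi * v)| := by
          rw [abs_mul, abs_mul, abs_of_nonneg hk, abs_two]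
      _ ≤ 2 * |u - v| + k * (2 * Real.pi * |u - v|) := by gcongr
      _ = (2 + 2 * Real.pi * k) * |u - v| := by ring

/-! ### propagation -/

section prop

variable {a : ℤ → ℝ} {I J p : ℤ} {u : ℤ → ℝ} {B ε : ℝ}

lemma prop_fwd (hB : 1 ≤ B) (hε : 0 ≤ ε) (hs : IsSol a I J u)
    (hb : ∀ t, I ≤ t → t ≤ J → |a t| + 1 ≤ B) (hp : I ≤ p + 1) (h0 : |u p| ≤ ε)
    (h1 : |u (p + 1)| ≤ ε) : ∀ n : ℕ, p + n ≤ J + 1 → |u (p + n)| ≤ B ^ n * ε
  | 0, _ => by simpa using h0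
  | 1, _ => by
    simp only [Nat.cast_one, pow_one]
    nlinarith
  | (n + 2), hn => by
    have i1 := prop_fwd hB hε hs hb hp h0 h1 (n + 1) (by push_cast at *; omega)
    have i0 := prop_fwd hB hε hs hb hp h0 h1 n (by push_cast at *; omega)
    have h2 := hs (p + (n + 1 : ℕ)) (by push_cast; omega) (by push_cast at *; omega)
    have h3 := hb (p + (n + 1 : ℕ)) (by push_cast; omega) (by push_cast at *; omega)
    have f1 : p + ((n + 2 : ℕ) : ℤ) = p + ((n + 1 : ℕ) : ℤ) + 1 := by push_cast; ring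
    have f2 : p + ((n + 1 : ℕ) : ℤ) - 1 = p + (n : ℤ) := by push_cast; ring
    rw [f1, h2, f2]
    have h4 : B ^ n * ε ≤ B ^ (n + 1) * ε :=
      mul_le_mul_of_nonneg_right (pow_le_pow_right₀ hB (by omega)) hε
    have h5 : 0 ≤ B ^ (n + 1) * ε := by positivity
    calc |a (p + ((n + 1 : ℕ) : ℤ)) * u (p + ((n + 1 : ℕ) : ℤ)) - u (p + (n : ℤ))|
        ≤ |a (p + ((n + 1 : ℕ) : ℤ))| * |u (p + ((n + 1 : ℕ) : ℤ))| + |u (p + (n : ℤ))| := by
          rw [← abs_mul]; exact abs_sub _ _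
      _ ≤ |a (p + ((n + 1 : ℕ) : ℤ))| * (B ^ (n + 1) * ε) + B ^ (n + 1) * ε :=
          add_le_add (mul_le_mul_of_nonneg_left i1 (abs_nonneg _)) (i0.trans h4)
      _ = (|a (p + ((n + 1 : ℕ) : ℤ))| + 1) * (B ^ (n + 1) * ε) := by ring
      _ ≤ B * (B ^ (n + 1) * ε) := mul_le_mul_of_nonneg_right h3 h5
      _ = B ^ (n + 2) * ε := by ring

lemma prop_bwd (hB : 1 ≤ B) (hε : 0 ≤ ε) (hs : IsSol a I J u)
    (hb : ∀ t, I ≤ t → t ≤ J → |a t| + 1 ≤ B) (hp : p ≤ J) (h0 : |u p| ≤ ε)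
    (h1 : |u (p + 1)| ≤ ε) : ∀ n : ℕ, I - 1 ≤ p + 1 - n → |u (p + 1 - n)| ≤ B ^ n * ε
  | 0, _ => by simpa using h1
  | 1, _ => by
    simp only [Nat.cast_one, pow_one, add_sub_cancel_right]
    nlinarith
  | (n + 2), hn => by
    have i1 := prop_bwd hB hε hs hb hp h0 h1 (n + 1) (by push_cast at *; omega)
    have i0 := prop_bwd hB hε hs hb hp h0 h1 n (by push_cast at *; omega)
    have h2 := hs (p + 1 - (n + 1 : ℕ)) (by push_cast at *; omega) (by push_cast; omega)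
    have h3 := hb (p + 1 - (n + 1 : ℕ)) (by push_cast at *; omega) (by push_cast; omega)
    have f1 : p + 1 - ((n + 2 : ℕ) : ℤ) = p + 1 - ((n + 1 : ℕ) : ℤ) - 1 := by push_cast; ring
    have f2 : p + 1 - ((n + 1 : ℕ) : ℤ) + 1 = p + 1 - (n : ℤ) := by push_cast; ring
    rw [f2] at h2
    have h6 : u (p + 1 - ((n + 1 : ℕ) : ℤ) - 1) =
        a (p + 1 - ((n + 1 : ℕ) : ℤ)) * u (p + 1 - ((n + 1 : ℕ) : ℤ)) - u (p + 1 - (n : ℤ)) := by
      linarith
    rw [f1, h6]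
    have h4 : B ^ n * ε ≤ B ^ (n + 1) * ε :=
      mul_le_mul_of_nonneg_right (pow_le_pow_right₀ hB (by omega)) hε
    have h5 : 0 ≤ B ^ (n + 1) * ε := by positivity
    calc |a (p + 1 - ((n + 1 : ℕ) : ℤ)) * u (p + 1 - ((n + 1 : ℕ) : ℤ)) - u (p + 1 - (n : ℤ))|
        ≤ |a (p + 1 - ((n + 1 : ℕ) : ℤ))| * |u (p + 1 - ((n + 1 : ℕ) : ℤ))| +
            |u (p + 1 - (n : ℤ))| := by
          rw [← abs_mul]; exact abs_sub _ _
      _ ≤ |a (p + 1 - ((n + 1 : ℕ) : ℤ))| * (B ^ (n + 1) * ε) + B ^ (n + 1) * ε :=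
          add_le_add (mul_le_mul_of_nonneg_left i1 (abs_nonneg _)) (i0.trans h4)
      _ = (|a (p + 1 - ((n + 1 : ℕ) : ℤ))| + 1) * (B ^ (n + 1) * ε) := by ring
      _ ≤ B * (B ^ (n + 1) * ε) := mul_le_mul_of_nonneg_right h3 h5
      _ = B ^ (n + 2) * ε := by ring

/-- a solution which is small at two consecutive sites stays small -/
lemma prop_bound (hB : 1 ≤ B) (hε : 0 ≤ ε) (hs : IsSol a I J u)
    (hb : ∀ t, I ≤ t → t ≤ J → |a t| + 1 ≤ B) (hp : I ≤ p + 1) (hp' : p ≤ J) (h0 : |u p| ≤ ε)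
    (h1 : |u (p + 1)| ≤ ε) {t : ℤ} (ht1 : I - 1 ≤ t) (ht2 : t ≤ J + 1) {m : ℕ}
    (hm1 : t - p ≤ m) (hm2 : p + 1 - t ≤ m) : |u t| ≤ B ^ m * ε := by
  rcases le_or_gt p t with h | h
  · have h2 := prop_fwd hB hε hs hb hp h0 h1 (t - p).toNat (by omega)
    have e : p + ((t - p).toNat : ℤ) = t := by omega
    rw [e] at h2
    exact h2.trans (mul_le_mul_of_nonneg_right (pow_le_pow_right₀ hB (by omega)) hε)
  · have h2 := prop_bwd hB hε hs hb hp' h0 h1 (p + 1 - t).toNat (by omega)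
    have e : p + 1 - ((p + 1 - t).toNat : ℤ) = t := by omega
    rw [e] at h2
    exact h2.trans (mul_le_mul_of_nonneg_right (pow_le_pow_right₀ hB (by omega)) hε)

end prop

/-! ### trivial perturbation of determinants -/

lemma abs_D462_sub_le {a a' : ℤ → ℝ} {B σ : ℝ} (hB : 2 ≤ B) (hσ : 0 ≤ σ) {i j : ℤ} {w : ℕ}
    (hw : j - i ≤ w) (ha : ∀ t, i ≤ t → t < j → |a t| + 1 ≤ B)
    (ha' : ∀ t, i ≤ t → t < j → |a' t| + 1 ≤ B)
    (h : ∀ t, i ≤ t → t < j → |a' t - a t| ≤ σ) :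
    |H462.D a' i j - H462.D a i j| ≤ B ^ (2 * w) * σ := by
  have hB1 : (1 : ℝ) ≤ B := by linarith
  rw [D462_eq, D462_eq]
  refine (abs_D_sub_le hB1 (fun t h1 h2 => ha t h1 (by omega))
    (fun t h1 h2 => ha' t h1 (by omega))).trans ?_
  have h1 : ∑ l ∈ Finset.Icc i (j - 1), |a' l - a l| ≤ w * σ := by
    calc ∑ l ∈ Finset.Icc i (j - 1), |a' l - a l| ≤ ∑ l ∈ Finset.Icc i (j - 1), σ := by
          apply Finset.sum_le_sum
          intro l hl
          rw [Finset.mem_Icc] at hl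
          exact h l hl.1 (by omega)
      _ = ((j - 1 + 1 - i).toNat : ℝ) * σ := by
          rw [Finset.sum_const, Int.card_Icc, nsmul_eq_mul]
      _ ≤ w * σ := by
          apply mul_le_mul_of_nonneg_right _ hσ
          exact_mod_cast (by omega : (j - 1 + 1 - i).toNat ≤ w)
  have h2 : B ^ (j - 1 - i).toNat ≤ B ^ w := pow_le_pow_right₀ hB1 (by omega)
  have h3 : (w : ℝ) ≤ B ^ w := by
    have h4 : (w : ℝ) ≤ 2 ^ w := by exact_mod_cast (Nat.lt_two_pow_self).le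
    exact h4.trans (pow_le_pow_left₀ (by norm_num) hB w)
  calc B ^ (j - 1 - i).toNat * ∑ l ∈ Finset.Icc i (j - 1), |a' l - a l|
      ≤ B ^ w * (w * σ) := mul_le_mul h2 h1 (Finset.sum_nonneg fun _ _ => abs_nonneg _)
        (by positivity)
    _ ≤ B ^ w * (B ^ w * σ) := by gcongr
    _ = B ^ (2 * w) * σ := by rw [two_mul, pow_add]; ring

/-- **Transfer of the non-peak inequality** to a nearby sequence. -/
lemma transfer {a a' : ℤ → ℝ} {B σ dep : ℝ} {i p q j : ℤ} {w : ℕ} (hB : 2 ≤ B) (hσ : 0 ≤ σ)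
    (hip : i ≤ p) (hpq : p ≤ q) (hqj : q ≤ j) (hw : j - i ≤ w)
    (ha : ∀ t, i ≤ t → t < j → |a t| + 1 ≤ B) (ha' : ∀ t, i ≤ t → t < j → |a' t| + 1 ≤ B)
    (h : ∀ t, i ≤ t → t < j → |a' t - a t| ≤ σ) (hdep : 1 ≤ dep)
    (hσ0 : B ^ (2 * w) * σ * (4 * dep) ≤ 1) (h1 : 1 ≤ |H462.D a i p|) (h2 : 1 ≤ |H462.D a q j|)
    (h3 : |H462.D a i p| * |H462.D a q j| ≤ |H462.D a i j| * dep) :
    |H462.D a' i p| * |H462.D a' q j| ≤ |H462.D a' i j| * (4 * dep) := by
  have e1 := abs_D462_sub_le hB hσ (by omega : p - i ≤ w) (fun t x y => ha t x (by omega))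
    (fun t x y => ha' t x (by omega)) (fun t x y => h t x (by omega))
  have e2 := abs_D462_sub_le hB hσ (by omega : j - q ≤ w) (fun t x y => ha t (by omega) y)
    (fun t x y => ha' t (by omega) y) (fun t x y => h t (by omega) y)
  have e3 := abs_D462_sub_le hB hσ hw ha ha' h
  set ε := B ^ (2 * w) * σ with hε
  have hε0 : 0 ≤ ε := by positivity
  set x := |H462.D a i p|
  set y := |H462.D a q j|
  set z := |H462.D a i j|
  have f1 : |H462.D a' i p| ≤ x + ε := by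
    have := abs_sub_abs_le_abs_sub (H462.D a' i p) (H462.D a i p)
    linarith
  have f2 : |H462.D a' q j| ≤ y + ε := by
    have := abs_sub_abs_le_abs_sub (H462.D a' q j) (H462.D a q j)
    linarith
  have f3 : z - ε ≤ |H462.D a' i j| := by
    have := abs_sub_abs_le_abs_sub (H462.D a i j) (H462.D a' i j)
    rw [abs_sub_comm] at this
    linarith
  have hε4 : ε ≤ 1 / 4 := by nlinarith
  have hz : x * y ≤ z * dep := h3
  have hxy : 1 ≤ x * y := by nlinarith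
  have hz4 : 4 * ε ≤ z := by
    have : ε * (4 * dep) ≤ z * dep := by linarith
    have h5 : (4 * ε) * dep ≤ z * dep := by linarith
    exact le_of_mul_le_mul_right h5 (by linarith)
  calc |H462.D a' i p| * |H462.D a' q j| ≤ (x + ε) * (y + ε) :=
        mul_le_mul f1 f2 (abs_nonneg _) (by linarith)
    _ ≤ (5 / 4 * x) * (5 / 4 * y) := by
        apply mul_le_mul (by linarith) (by linarith) (by linarith) (by linarith)
    _ = 25 / 16 * (x * y) := by ring
    _ ≤ 25 / 16 * (z * dep) := by linarith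
    _ ≤ (z - ε) * (4 * dep) := by nlinarith
    _ ≤ |H462.D a' i j| * (4 * dep) := mul_le_mul_of_nonneg_right f3 (by linarith)

end Vale.Agent.P108.H954
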