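import Vale.Agent.P108.H954.Sep1
import Vale.Agent.P108.Sk.Main
import Vale.Agent.P108.H462.Growth

/-!
# P108, KS entropy: the assembly from the robust growth statement
-/

open MeasureTheory Filter Set Topology
open scoped ENNReal

namespace Vale.Agent.P108.H954

open Vale.Agent.P108 Vale.Agent.P108.FT Vale.Agent.P108.Dyn Vale.Agent.P108.H504 P108C
open Vale.Agent.P108.H786 (ao)
open Vale.Agent.P108.Sk (Setting GoodWin LongCl Bset cc Nset NearBound EBound NcBound EquiB Decor)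

/-- **Robust growth**: in a setting for `a`, every sequence `a'` which is bounded, `1`-close to `a`
and extremely close to `a` near the runs of the bad set is hyperbolic on good windows. -/
def GrowRobust (Λ W : ℕ) : Prop :=
  ∃ k0 : ℝ, ∀ k ≥ k0, ∀ (s : ℝ) (a a' : ℤ → ℝ) (u w : ℤ) (X : Set ℤ), Setting k s a u w X →
    (∀ t, u ≤ t → t < w → |a' t| + 1 ≤ 9 * k) →
    (∀ t, u ≤ t → t < w → |a' t - a t| ≤ 1) →
    (∀ p q i j : ℤ, u ≤ i → i < p → p < q → q < j → j ≤ w → H462.Run X p q → p - 1 ∉ X →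
      j - i ≤ W * (q - p) → ∀ t, i ≤ t → t < j →
        |a' t - a t| * (9 * k) ^ (4 * W * (q - p).toNat) ≤ 1) →
    GoodWin X u (w - 1) → H462.Hyp a' X (9 * k) Λ Sk.c0 u w

/-! ### the good sets -/

/-- good points at time `n` -/
def GS (c η : ℝ) (X : ℝ × ℝ → Set ℤ) (n : ℕ) : Set (ℝ × ℝ) :=
  {z | z ∈ Q ∧ (0 : ℤ) ∉ P108C.dr c n (X z) ∧ ((n : ℤ) - 1) ∉ P108C.dl c n (X z) ∧
    (ms (X z) 0 n : ℝ) ≤ η * n}

lemma measurableSet_GS {k c η : ℝ} {X : ℝ × ℝ → Set ℤ} (hX : Equi (Tz k) X) (n : ℕ) :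
    MeasurableSet (GS c η X n) := by
  have h1 : MeasurableSet {z : ℝ × ℝ | (0 : ℤ) ∉ P108C.dr c n (X z)} :=
    ((hX.dr c n).meas 0).compl
  have h2 : MeasurableSet {z : ℝ × ℝ | ((n : ℤ) - 1) ∉ P108C.dl c n (X z)} :=
    ((hX.dl c n).meas _).compl
  have h3 : MeasurableSet {z : ℝ × ℝ | (ms (X z) 0 n : ℝ) ≤ η * n} :=
    measurableSet_le (measurable_from_nat.comp (measurable_ms hX.meas 0 n)) measurable_const
  have e : GS c η X n = Q ∩ ({z : ℝ × ℝ | (0 : ℤ) ∉ P108C.dr c n (X z)} ∩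
      ({z : ℝ × ℝ | ((n : ℤ) - 1) ∉ P108C.dl c n (X z)} ∩
        {z : ℝ × ℝ | (ms (X z) 0 n : ℝ) ≤ η * n})) := by
    ext z
    simp only [GS, mem_ofPred_eq, mem_inter_iff]
  rw [e]
  exact measurableSet_Q.inter (h1.inter (h2.inter h3))

lemma mass_GS {k c η m : ℝ} (hc : 0 < c) (hη : 0 < η) {X : ℝ × ℝ → Set ℤ} (hX : Equi (Tz k) X)
    (hm : mQ.real {z | (0 : ℤ) ∈ X z} ≤ m) (hsm : 2 * m / c + m / η ≤ 1 / 2) {n : ℕ}
    (hn : 1 ≤ n) : 1 / 2 ≤ mQ.real (GS c η X n) := by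
  have h2 : mQ.real {z | (0 : ℤ) ∈ P108C.dr c n (X z)} ≤ m / c := by
    rw [le_div_iff₀ hc, mul_comm]
    exact (hX.maximal_right (mp_Tz k) hc n).trans hm
  have h3 : mQ.real {z | ((n : ℤ) - 1) ∈ P108C.dl c n (X z)} ≤ m / c := by
    rw [(hX.dl c n).measure_eq (mp_Tz k) _, le_div_iff₀ hc, mul_comm]
    exact (hX.maximal_left (mp_Tz k) hc n).trans hm
  have hn0 : (0 : ℝ) < n := by exact_mod_cast hn
  have h4 : mQ.real {z | η * n ≤ (ms (X z) 0 n : ℝ)} ≤ m / η := by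
    have h5 := mul_meas_ge_le_integral_of_nonneg (μ := mQ)
      (Filter.Eventually.of_forall fun z => (Nat.cast_nonneg (ms (X z) 0 n) : (0 : ℝ) ≤ _))
      (hX.integrable_ms 0 n) (η * n)
    rw [hX.integral_ms (mp_Tz k) (by omega : (0 : ℤ) ≤ n)] at h5
    rw [le_div_iff₀ hη]
    have h6 : η * n * mQ.real {z | η * n ≤ (ms (X z) 0 n : ℝ)} ≤ n * m := by
      refine h5.trans ?_
      push_cast
      rw [sub_zero]
      exact mul_le_mul_of_nonneg_left hm hn0.le
    have h7 : n * (mQ.real {z | η * n ≤ (ms (X z) 0 n : ℝ)} * η) ≤ n * m := by linarith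
    exact le_of_mul_le_mul_left h7 hn0
  have hQ : mQ.real (Qᶜ) = 0 := by
    have : mQ Qᶜ = 0 := by
      unfold mQ
      rw [Measure.restrict_apply measurableSet_Q.compl, compl_inter_self, measure_empty]
    rw [measureReal_def, this]; simp
  have hcov : (GS c η X n)ᶜ ⊆ Qᶜ ∪ ({z | (0 : ℤ) ∈ P108C.dr c n (X z)} ∪
      ({z | ((n : ℤ) - 1) ∈ P108C.dl c n (X z)} ∪ {z | η * n ≤ (ms (X z) 0 n : ℝ)})) := by
    intro z hz
    by_contra hcon
    simp only [mem_union, mem_compl_iff, mem_ofPred_eq, not_or, not_not, not_le] at hcon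
    exact hz ⟨hcon.1, hcon.2.1, hcon.2.2.1, hcon.2.2.2.le⟩
  have h8 : mQ.real (GS c η X n)ᶜ ≤ 1 / 2 := by
    calc mQ.real (GS c η X n)ᶜ ≤ mQ.real (Qᶜ ∪ ({z | (0 : ℤ) ∈ P108C.dr c n (X z)} ∪
      ({z | ((n : ℤ) - 1) ∈ P108C.dl c n (X z)} ∪ {z | η * n ≤ (ms (X z) 0 n : ℝ)}))) :=
          measureReal_mono hcov
      _ ≤ mQ.real Qᶜ + (mQ.real {z | (0 : ℤ) ∈ P108C.dr c n (X z)} +
          (mQ.real {z | ((n : ℤ) - 1) ∈ P108C.dl c n (X z)} +
            mQ.real {z | η * n ≤ (ms (X z) 0 n : ℝ)})) :=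
          (measureReal_union_le _ _).trans (add_le_add le_rfl ((measureReal_union_le _ _).trans
            (add_le_add le_rfl (measureReal_union_le _ _))))
      _ ≤ 0 + (m / c + (m / c + m / η)) := by
          rw [hQ]; gcongr
      _ = 2 * m / c + m / η := by ring
      _ ≤ 1 / 2 := hsm
  rw [probReal_compl_eq_one_sub (measurableSet_GS hX n)] at h8
  linarith

/-! ### the separation -/

/-- base of the growth -/
noncomputable def gk (k : ℝ) : ℝ := k ^ (1 / 100 : ℝ) / 4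

lemma clean_of_notMem {k s : ℝ} (hk : 0 < k) (hs : 0 ≤ s) {a : ℤ → ℝ} {t : ℤ}
    (ht : t ∉ Bset k s a) : k ^ (1 / 100 : ℝ) ≤ |a t| := by
  by_contra hcon
  push Not at hcon
  apply ht
  refine ⟨t, Sk.s0 k, Or.inl ⟨rfl, ?_⟩, by simp⟩
  change |a t| < (1 + s) * k ^ Sk.cβ
  have h1 : 0 ≤ k ^ Sk.cβ := by positivity
  calc |a t| < k ^ (1 / 100 : ℝ) := hcon
    _ ≤ (1 + s) * k ^ Sk.cβ := by nlinarith

theorem sep_main {k s : ℝ} {Λ W N b : ℕ} [NeZero N] (hk : 2 ^ 200 ≤ k) (hs : s ∈ Icc (0 : ℝ) 1)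
    (hL : LongCl)
    (hR : ∀ (s : ℝ) (a a' : ℤ → ℝ) (u w : ℤ) (X : Set ℤ), Setting k s a u w X →
      (∀ t, u ≤ t → t < w → |a' t| + 1 ≤ 9 * k) →
      (∀ t, u ≤ t → t < w → |a' t - a t| ≤ 1) →
      (∀ p q i j : ℤ, u ≤ i → i < p → p < q → q < j → j ≤ w → H462.Run X p q → p - 1 ∉ X →
        j - i ≤ W * (q - p) → ∀ t, i ≤ t → t < j →
          |a' t - a t| * (9 * k) ^ (4 * W * (q - p).toNat) ≤ 1) →
      GoodWin X u (w - 1) → H462.Hyp a' X (9 * k) Λ Sk.c0 u w)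
    (hN : 40 * k ≤ N) (hb : (9 * k) ^ (5 * W + 3) ≤ b) {η : ℝ} {n : ℕ} (hn : 3 ≤ n) :
    Sep k N b n (fun z => ClInf cc (Bset k s (ao k z)))
      (GS Sk.c0 η (fun z => ClInf cc (Bset k s (ao k z))) n)
      (gk k ^ 2 * Real.exp (-((Real.log (gk k) -
        η * (Real.log (gk k) + Λ * Real.log (9 * k))) * n))) := by
  intro z hz w hw hzw hname _ hrun
  obtain ⟨hzQ, hz1, hz2, hz3⟩ := hz
  simp only at hz1 hz2 hz3
  have hk0 : (0 : ℝ) < k := lt_of_lt_of_le (by positivity) hk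
  have hk2 : (2 : ℝ) ≤ k := le_trans (by norm_num) hk
  have hpi := Real.pi_pos
  have hpi2 := Real.pi_lt_d2
  set X : Set ℤ := ClInf cc (Bset k s (ao k z)) with hX
  set a := ao k z with ha
  set a' := am k z w with ha'
  set B : ℝ := 9 * k with hB
  have hB1 : (1 : ℝ) ≤ B := by rw [hB]; linarith
  have hB0 : (0 : ℝ) < B := by linarith
  have hN0 : (0 : ℝ) < N := by linarith
  -- small differences
  have hdy : ∀ i : ℤ, 0 ≤ i → i < n → |dy k z w i| < 1 / N := fun i h0 hi =>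
    dy_lt_of_name hzQ hw.1 hname h0 hi
  have hδ : (4 + 2 * Real.pi * k) * (1 / (N : ℝ)) ≤ 1 := by
    rw [mul_one_div, div_le_one hN0]
    nlinarith
  have hsol : IsSol a' 1 (n - 2) (dy k z w) := isSol_dy hk0.le hδ hdy
  have hb' : ∀ t, |a' t| + 1 ≤ B := by
    intro t
    have h1 := abs_sl_le hk0.le (Int.fract (orb k z t)) (Int.fract (orb k w t))
    have h2 : |a' t| ≤ 2 + 2 * Real.pi * k := h1
    rw [hB]
    nlinarith
  have hnear : ∀ t, |a' t - a t| ≤ 4 * Real.pi ^ 2 * k * |dy k z w t| := fun t =>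
    am_near hk0.le z w t
  have hpi4 : 4 * Real.pi ^ 2 ≤ 40 := by nlinarith
  have hclose : ∀ t : ℤ, 0 ≤ t → t < n → |a' t - a t| ≤ 1 := by
    intro t h0 h1
    calc |a' t - a t| ≤ 4 * Real.pi ^ 2 * k * |dy k z w t| := hnear t
      _ ≤ 40 * k * (1 / N) := by
          apply mul_le_mul _ (hdy t h0 h1).le (abs_nonneg _) (by positivity)
          exact mul_le_mul_of_nonneg_right hpi4 hk0.le
      _ ≤ 1 := by rw [mul_one_div, div_le_one hN0]; exact hN
  -- near the runs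
  set X' : Set ℤ := X ∩ Ico 1 ((n : ℤ) - 1) with hX'
  have hset : Setting k s a 1 ((n : ℤ) - 1) X' := Sk.setting_ClInf hL hk2 hs z 1 _
  have hruns : ∀ p q i j : ℤ, 1 ≤ i → i < p → p < q → q < j → j ≤ (n : ℤ) - 1 →
      H462.Run X' p q → p - 1 ∉ X' → j - i ≤ W * (q - p) → ∀ t, i ≤ t → t < j →
        |a' t - a t| * B ^ (4 * W * (q - p).toNat) ≤ 1 := by
    intro p q i j h1 h2 h3 h4 h5 hrn hp1 hw t ht1 ht2
    have hpX : p - 1 ∉ X := fun h => hp1 ⟨h, by constructor <;> omega⟩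
    set ℓ := (q - p).toNat with hℓ
    have h6 := hrun p.toNat q.toNat (by omega) (by omega)
      (fun i hi1 hi2 => (hrn i (by omega) (by omega)).1)
      (Or.inl (by
        have : ((p.toNat : ℤ)) = p := by omega
        rw [this]; exact hpX))
    have e1 : ((p.toNat : ℤ)) = p := by omega
    have e2 : q.toNat - p.toNat = ℓ := by omega
    rw [e1, e2] at h6
    set ε : ℝ := ((b : ℝ) ^ ℓ)⁻¹ with hε
    have hbpos : (0 : ℝ) < b := lt_of_lt_of_le (by positivity) hb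
    have hε0 : 0 < ε := by positivity
    have hwℓ : (W * (q - p) : ℤ) = ((W * ℓ : ℕ) : ℤ) := by
      push_cast
      rw [hℓ, Int.toNat_of_nonneg (by omega)]
    have h7 : |dy k z w t| ≤ B ^ (W * ℓ + 1) * ε := by
      refine prop_bound hB1 hε0.le hsol (fun t _ _ => hb' t) (p := p) (by omega) (by omega)
        h6.1.le h6.2.le (by omega) (by omega) ?_ ?_
      · push_cast at hwℓ ⊢
        omega
      · push_cast at hwℓ ⊢
        omega
    have h8 : 4 * Real.pi ^ 2 * k ≤ B ^ 2 := by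
      rw [hB]
      nlinarith
    have h9 : |a' t - a t| ≤ B ^ (W * ℓ + 3) * ε := by
      calc |a' t - a t| ≤ 4 * Real.pi ^ 2 * k * |dy k z w t| := hnear t
        _ ≤ B ^ 2 * (B ^ (W * ℓ + 1) * ε) := mul_le_mul h8 h7 (abs_nonneg _) (by positivity)
        _ = B ^ (W * ℓ + 3) * ε := by rw [pow_add B (W * ℓ) 3, pow_add B (W * ℓ) 1]; ring
    have hℓ1 : 1 ≤ ℓ := by omega
    have h10 : B ^ (W * ℓ + 3) * B ^ (4 * W * ℓ) ≤ (b : ℝ) ^ ℓ := by
      rw [← pow_add]
      calc B ^ (W * ℓ + 3 + 4 * W * ℓ) ≤ B ^ ((5 * W + 3) * ℓ) := by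
            apply pow_le_pow_right₀ hB1
            nlinarith
        _ = (B ^ (5 * W + 3)) ^ ℓ := by rw [pow_mul]
        _ ≤ (b : ℝ) ^ ℓ := pow_le_pow_left₀ (by positivity) hb ℓ
    calc |a' t - a t| * B ^ (4 * W * ℓ) ≤ (B ^ (W * ℓ + 3) * ε) * B ^ (4 * W * ℓ) :=
          mul_le_mul_of_nonneg_right h9 (by positivity)
      _ = (B ^ (W * ℓ + 3) * B ^ (4 * W * ℓ)) * ε := by ring
      _ ≤ (b : ℝ) ^ ℓ * ε := mul_le_mul_of_nonneg_right h10 hε0.le
      _ = 1 := mul_inv_cancel₀ (by positivity)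
  have hgood : GoodWin X' 1 ((n : ℤ) - 1 - 1) := by
    intro y hy1 hy2
    have hyn : y ≤ n := by omega
    constructor
    · have h1 : ms X' 1 (1 + y) ≤ ms X 1 (1 + y) := ms_mono inter_subset_left _ _
      by_contra hcon
      push Not at hcon
      apply hz1
      refine ⟨y, hy1, hyn, hcon.trans ?_⟩
      rw [zero_add]
      exact_mod_cast h1
    · have e : (n : ℤ) - 1 - 1 + 1 = n - 1 := by ring
      rw [e]
      have h1 : ms X' ((n : ℤ) - 1 - y) (n - 1) ≤ ms X ((n : ℤ) - 1 - y) (n - 1) :=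
        ms_mono inter_subset_left _ _
      by_contra hcon
      push Not at hcon
      apply hz2
      refine ⟨y, hy1, hyn, hcon.trans ?_⟩
      exact_mod_cast h1
  have hHyp := hR s a a' 1 ((n : ℤ) - 1) X' hset (fun t _ _ => hb' t)
    (fun t h1 h2 => hclose t (by omega) (by omega)) hruns hgood
  have hconc := hHyp.2 1 ((n : ℤ) - 1) le_rfl (by omega) le_rfl hHyp.1
  -- growth
  have hg1 : (4 : ℝ) ≤ k ^ (1 / 100 : ℝ) := by
    have h6 : ((2 : ℝ) ^ (200 : ℝ)) ^ (1 / 100 : ℝ) = 4 := by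
      rw [← Real.rpow_mul (by norm_num)]
      norm_num
    rw [← h6]
    apply Real.rpow_le_rpow (by positivity) _ (by norm_num)
    have : (2 : ℝ) ^ (200 : ℝ) = 2 ^ (200 : ℕ) := by
      rw [← Real.rpow_natCast]; norm_num
    rw [this]; exact hk
  set g := gk k with hg
  have hgk : g = k ^ (1 / 100 : ℝ) / 4 := rfl
  have hg0 : 1 ≤ g := by rw [hgk]; linarith
  have hgpos : 0 < g := by linarith
  have hclean : ∀ t, 1 ≤ t → t < (n : ℤ) - 1 → t ∉ X' → 2 * g ≤ |a' t| := by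
    intro t h1 h2 h3
    have h4 : t ∉ Bset k s a := fun h => h3 ⟨subset_ClInf cc _ h, by constructor <;> omega⟩
    have h5 := clean_of_notMem hk0 hs.1 h4
    have h6 := hclose t (by omega) (by omega)
    have h7 : |a t| - |a' t| ≤ |a t - a' t| := abs_sub_abs_le_abs_sub _ _
    rw [abs_sub_comm] at h7
    rw [hgk]
    linarith
  set m := ms X' 1 ((n : ℤ) - 1) with hm
  have hW := H462.pow_le_Wt hg0 (by omega : (1 : ℤ) ≤ (n : ℤ) - 1) hclean
  rw [← hm] at hW
  have hC1 := hconc.1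
  rw [← hm] at hC1
  have hn2 : ((n : ℤ) - 1 - 1).toNat = n - 2 := by omega
  rw [hn2] at hW
  have hdyn := dy_eq hk0.le hδ hdy hzw (j := (n : ℤ) - 1) (by omega) le_rfl
  have hdn := hdy ((n : ℤ) - 1) (by omega) (by omega)
  rw [hdyn, ← D462_eq, abs_mul] at hdn
  set Dn := |H462.D a' 1 ((n : ℤ) - 1)| with hDn
  have hN1 : 1 / (N : ℝ) ≤ 1 := by
    rw [div_le_one hN0]
    linarith
  have hdn1 : |dy k z w 1| * Dn ≤ 1 := hdn.le.trans hN1
  have hmη : (m : ℝ) ≤ η * n := by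
    have h1 : m ≤ ms X 0 n := (ms_mono inter_subset_left _ _).trans (ms_mono' (by omega) (by omega))
    have h2 : (m : ℝ) ≤ ms X 0 n := by exact_mod_cast h1
    exact h2.trans hz3
  have hlogg : 0 ≤ Real.log g := Real.log_nonneg hg0
  have hlogB : 0 ≤ Real.log B := Real.log_nonneg hB1
  have h1 : |dy k z w 1| * g ^ (n - 2) ≤ Real.exp ((Real.log g + Λ * Real.log B) * (η * n)) := by
    calc |dy k z w 1| * g ^ (n - 2) ≤ |dy k z w 1| * (Dn * B ^ (Λ * m) * g ^ m) := by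
          apply mul_le_mul_of_nonneg_left _ (abs_nonneg _)
          exact hW.trans (mul_le_mul_of_nonneg_right hC1 (by positivity))
      _ = (|dy k z w 1| * Dn) * (B ^ (Λ * m) * g ^ m) := by ring
      _ ≤ 1 * (B ^ (Λ * m) * g ^ m) := mul_le_mul_of_nonneg_right hdn1 (by positivity)
      _ = Real.exp ((Real.log g + Λ * Real.log B) * m) := by
          rw [one_mul, ← Real.exp_log (show 0 < B ^ (Λ * m) * g ^ m by positivity),
            Real.log_mul (by positivity) (by positivity), Real.log_pow, Real.log_pow]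
          congr 1
          push_cast
          ring
      _ ≤ _ := by
          apply Real.exp_le_exp.2
          exact mul_le_mul_of_nonneg_left hmη (by positivity)
  have h2 : g ^ (n - 2) * g ^ 2 = Real.exp (Real.log g * n) := by
    rw [← pow_add, show n - 2 + 2 = n by omega, mul_comm, Real.exp_nat_mul, Real.exp_log hgpos]
  have h3 : |dy k z w 1| * Real.exp (Real.log g * n) ≤
      g ^ 2 * Real.exp ((Real.log g + Λ * Real.log B) * (η * n)) := by
    rw [← h2]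
    calc |dy k z w 1| * (g ^ (n - 2) * g ^ 2) = g ^ 2 * (|dy k z w 1| * g ^ (n - 2)) := by ring
      _ ≤ _ := mul_le_mul_of_nonneg_left h1 (by positivity)
  have h4 : |dy k z w 1| = |dy k z w 1| * Real.exp (Real.log g * n) *
      Real.exp (-(Real.log g * n)) := by
    rw [mul_assoc, ← Real.exp_add, add_neg_cancel, Real.exp_zero, mul_one]
  rw [h4]
  calc |dy k z w 1| * Real.exp (Real.log g * n) * Real.exp (-(Real.log g * n))
      ≤ g ^ 2 * Real.exp ((Real.log g + Λ * Real.log B) * (η * n)) *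
          Real.exp (-(Real.log g * n)) := mul_le_mul_of_nonneg_right h3 (Real.exp_pos _).le
    _ = _ := by
        rw [mul_assoc, ← Real.exp_add]
        congr 2
        ring

/-! ### the density of the closure -/

theorem closure_mass (hN : NearBound) (hE : EBound) (hC : NcBound) (hQ : EquiB)
    (hdec : Decor) {m : ℝ} (hm : 0 < m) : ∃ k0 : ℝ, ∀ k ≥ k0, ∃ s ∈ Icc (0 : ℝ) 1,
      Equi (Tz k) (fun z => ClInf cc (Bset k s (ao k z))) ∧
      mQ.real {z | (0 : ℤ) ∈ ClInf cc (Bset k s (ao k z))} ≤ m := by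
  obtain ⟨k1, hN⟩ := hN
  obtain ⟨k2, hE⟩ := hE
  obtain ⟨k3, hC⟩ := hC
  obtain ⟨C, k5, hC0, hdec⟩ := hdec
  set F : ℝ → ℝ := fun k => 4 * k ^ (-(1 / 20000) : ℝ) with hF
  have hFt : Tendsto F atTop (𝓝 0) := by
    have h := (tendsto_rpow_neg_atTop (show (0 : ℝ) < 1 / 20000 by norm_num)).const_mul 4
    rwa [mul_zero] at h
  have hev1 : ∀ᶠ k in atTop, 4 * F k * C * ((1 + cc) ^ 2 / cc ^ 3) ^ 2 ≤ 1 := by
    have h : Tendsto (fun k => 4 * F k * C * ((1 + cc) ^ 2 / cc ^ 3) ^ 2) atTop (𝓝 0) := by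
      have := ((hFt.const_mul 4).mul_const C).mul_const (((1 + cc) ^ 2 / cc ^ 3) ^ 2)
      simpa using this
    exact (h.eventually (gt_mem_nhds (show (0 : ℝ) < 1 by norm_num))).mono fun k hk => hk.le
  have hev2 : ∀ᶠ k in atTop, 2 * F k ≤ m := by
    have h : Tendsto (fun k => 2 * F k) atTop (𝓝 0) := by
      have h1 := hFt.const_mul 2
      simpa using h1
    exact (h.eventually (gt_mem_nhds hm)).mono fun k hk => hk.le
  obtain ⟨k6, h6⟩ := eventually_atTop.1 hev1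
  obtain ⟨k7, h7⟩ := eventually_atTop.1 hev2
  refine ⟨max (max (max k1 k2) k3) (max (max k5 k6) (max k7 16)), fun k hk => ?_⟩
  simp only [ge_iff_le, max_le_iff] at hk
  obtain ⟨⟨⟨hk1, hk2⟩, hk3⟩, ⟨hk5, hk6⟩, hk7, hk8⟩ := hk
  have hk0 : 0 < k := by linarith
  obtain ⟨s, hs, hNs⟩ := hN k hk1
  have hEs := hE k hk2 s hs
  obtain ⟨hC1, hC2⟩ := hC k hk3 s hs
  obtain ⟨hQ1, hQ2⟩ := hQ k s (by linarith)
  have hkinv : k⁻¹ ≤ k ^ (-(1 / 20000) : ℝ) := by
    rw [← Real.rpow_neg_one]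
    exact Real.rpow_le_rpow_of_exponent_le (by linarith) (by norm_num)
  have hFn : mQ.real {z | (0 : ℤ) ∈ Bset k s (ao k z)} + mQ.real (Nset k s) ≤ F k := by
    have h1 : mQ.real {z | (0 : ℤ) ∈ Bset k s (ao k z)} ≤
        mQ.real {z | (0 : ℤ) ∈ Sk.Eset k s (ao k z)} :=
      measureReal_mono fun z hz => Sk.Bset_subset_Eset hz
    have h2 : mQ.real (Nset k s) ≤ mQ.real {z | (0 : ℤ) ∈ Sk.Eset k s (ao k z)} +
        mQ.real {z | Sk.NcMax k s (ao k z)} + mQ.real (Sk.Near k s) := by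
      unfold Nset
      exact (measureReal_union_le _ _).trans (add_le_add (measureReal_union_le _ _) le_rfl)
    simp only [hF]
    linarith
  have hX := closure_bound_gen_inf (mp_Tz k) hQ1 (Bm := fun z => Sk.Bm k s (ao k z))
    (Bp := fun z => Sk.Bp k s (ao k z)) (fun z => Sk.Bm_subset) (fun z => Sk.Bp_subset)
    (c := cc) (C := C) (F := F k) (by norm_num) hC0 (fun _ => Nset k s)
    (fun n z hz h0 i _ hi hiB => Sk.mem_Bm_of (fun h => hz (Or.inl (Or.inl h))) hi hiB)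
    (fun n z hz h0 i hi _ hiB => Sk.mem_Bp_of (fun h => hz (Or.inl (Or.inl h))) hi hiB)
    (fun n => hdec k hk5 s hs n) (fun _ => hFn) (h6 k hk6)
  have hEq : Equi (Tz k) (fun z => ClInf cc (Bset k s (ao k z))) := by
    refine ⟨fun j z => ?_, fun i => meas_ClInf hQ1.meas cc i⟩
    ext i
    simp only [ClInf, mem_iUnion, mem_preimage]
    refine exists_congr fun n => ?_
    have := (hQ1.cl cc n).shift j z
    rw [this]
    rfl
  exact ⟨s, hs, hEq, hX.trans (h7 k hk7)⟩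

/-! ### the final theorem -/

theorem ks_of_robust {Λ W : ℕ} (hG : GrowRobust Λ W) (hN : NearBound) (hE : EBound)
    (hC : NcBound) (hQ : EquiB) (hL : LongCl) (hdec : Decor) :
    ∃ k0 : ℝ, ∀ k ≥ k0, ENNReal.ofReal (Real.log k / 400) ≤ P109.KS.ksEntropy mQ (T k) := by
  -- constants
  set K : ℝ := 8000 * ((5 * W + 4 : ℝ) + Λ) with hK
  have hKpos : 0 < K := by positivity
  set η : ℝ := 1 / K with hη
  have hη0 : 0 < η := by positivity
  set m : ℝ := min (Sk.c0 / 8) (η / 4) with hm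
  have hc0 : (0 : ℝ) < Sk.c0 := by norm_num
  have hm0 : 0 < m := lt_min (by positivity) (by positivity)
  have hsm : 2 * m / Sk.c0 + m / η ≤ 1 / 2 := by
    have h1 : 2 * m / Sk.c0 ≤ 1 / 4 := by
      rw [div_le_iff₀ hc0]
      have := min_le_left (Sk.c0 / 8) (η / 4)
      linarith
    have h2 : m / η ≤ 1 / 4 := by
      rw [div_le_iff₀ hη0]
      have := min_le_right (Sk.c0 / 8) (η / 4)
      linarith
    linarith
  obtain ⟨k1, hG⟩ := hG
  obtain ⟨k2, hM⟩ := closure_mass hN hE hC hQ hdec hm0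
  refine ⟨max (max k1 k2) (Real.exp 2000), fun k hk => ?_⟩
  simp only [ge_iff_le, max_le_iff] at hk
  obtain ⟨⟨hk1, hk2⟩, hk3⟩ := hk
  have hk0 : (0 : ℝ) < k := lt_of_lt_of_le (Real.exp_pos _) hk3
  have hlk : (2000 : ℝ) ≤ Real.log k := (Real.le_log_iff_exp_le hk0).2 hk3
  clear hk3
  have hlog2 : 0 < Real.log 2 := Real.log_pos (by norm_num)
  have hlog2' : Real.log 2 < 1 := by
    have := Real.log_two_lt_d9
    linarith
  have hk200 : (2 : ℝ) ^ 200 ≤ k := by
    rw [← Real.log_le_log_iff (by positivity) hk0, Real.log_pow]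
    push_cast
    linarith
  have hk9 : (9 : ℝ) ≤ k := le_trans (by norm_num) hk200
  obtain ⟨s, hs, hEq, hmass⟩ := hM k hk2
  -- the coding step and the base of the digits
  set N : ℕ := ⌈40 * k⌉₊ with hNdef
  have hN40 : 40 * k ≤ N := Nat.le_ceil _
  have hN0 : 0 < N := Nat.ceil_pos.2 (by positivity)
  have : NeZero N := ⟨hN0.ne'⟩
  set b : ℕ := ⌈(9 * k) ^ (5 * W + 3)⌉₊ with hb
  have hbB : (9 * k) ^ (5 * W + 3) ≤ b := Nat.le_ceil _
  have hb1 : 1 ≤ b := Nat.ceil_pos.2 (by positivity)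
  have hB1 : (1 : ℝ) ≤ 9 * k := by linarith
  have hblog : Real.log b ≤ (5 * W + 4) * Real.log (9 * k) := by
    have h1 : (b : ℝ) ≤ (9 * k) ^ (5 * W + 4) := by
      have h2 : (b : ℝ) < (9 * k) ^ (5 * W + 3) + 1 := Nat.ceil_lt_add_one (by positivity)
      have h3 : (1 : ℝ) ≤ (9 * k) ^ (5 * W + 3) := one_le_pow₀ hB1
      calc (b : ℝ) ≤ (9 * k) ^ (5 * W + 3) * 2 := by linarith
        _ ≤ (9 * k) ^ (5 * W + 3) * (9 * k) := by
            apply mul_le_mul_of_nonneg_left _ (by positivity)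
            linarith
        _ = (9 * k) ^ (5 * W + 4) := by rw [← pow_succ]
    have hb0 : (0 : ℝ) < b := by exact_mod_cast hb1
    calc Real.log b ≤ Real.log ((9 * k) ^ (5 * W + 4)) := Real.log_le_log hb0 h1
      _ = _ := by rw [Real.log_pow]; push_cast; ring
  -- logarithms
  set l := Real.log k with hl
  have hl9 : Real.log (9 * k) ≤ 2 * l := by
    rw [Real.log_mul (by norm_num) hk0.ne', two_mul]
    have := Real.log_le_log (by norm_num) hk9
    linarith
  have hl9' : 0 ≤ Real.log (9 * k) := Real.log_nonneg hB1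
  have hlog4 : Real.log 4 = 2 * Real.log 2 := by
    rw [show (4 : ℝ) = 2 ^ 2 by norm_num, Real.log_pow]; norm_num
  have hl0 : 0 < l := by linarith
  have hgk : Real.log (gk k) = 1 / 100 * l - Real.log 4 := by
    unfold gk
    rw [Real.log_div (by positivity) (by norm_num), Real.log_rpow hk0]
  set X : ℝ × ℝ → Set ℤ := fun z => ClInf cc (Bset k s (ao k z)) with hX
  set ρ : ℝ := Real.log (gk k) - η * (Real.log (gk k) + Λ * Real.log (9 * k)) with hρ
  have hW0 : (0 : ℝ) ≤ W := Nat.cast_nonneg _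
  have hΛ0 : (0 : ℝ) ≤ Λ := Nat.cast_nonneg _
  have hηK : η * K = 1 := by rw [hη]; field_simp
  have hηA : η * ((5 * W + 4 : ℝ) + Λ) = 1 / 8000 := by
    have : η * K = 8000 * (η * ((5 * W + 4 : ℝ) + Λ)) := by rw [hK]; ring
    linarith
  have hmain : Real.log 2 + 2 * η * Real.log b + l / 200 < ρ := by
    have h1 : 2 * η * Real.log b + η * (Real.log (gk k) + Λ * Real.log (9 * k)) ≤ l / 1000 := by
      have h2 : Real.log (gk k) ≤ Real.log (9 * k) := by
        rw [hgk]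
        have : Real.log k ≤ Real.log (9 * k) := Real.log_le_log hk0 (by linarith)
        linarith
      calc 2 * η * Real.log b + η * (Real.log (gk k) + Λ * Real.log (9 * k))
          ≤ 2 * η * ((5 * W + 4) * Real.log (9 * k)) +
              η * (Real.log (9 * k) + Λ * Real.log (9 * k)) := by gcongr
        _ = (2 * (5 * W + 4) + 1 + Λ) * η * Real.log (9 * k) := by ring
        _ ≤ (2 * ((5 * W + 4) + Λ)+ ((5 * W + 4) + Λ)) * η * (2 * l) := by
            apply mul_le_mul _ hl9 hl9' (by positivity)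
            apply mul_le_mul_of_nonneg_right _ hη0.le
            linarith
        _ = 6 * (η * ((5 * W + 4 : ℝ) + Λ)) * l := by ring
        _ = 6 / 8000 * l := by rw [hηA]; ring
        _ ≤ l / 1000 := by linarith
    rw [hρ]
    rw [hgk] at h1 ⊢
    linarith
  have := ks_of_sep (k := k) (N := N) hb1 (X := X) hEq.meas (η := η) (ρ := ρ)
    (A := gk k ^ 2) (c := l / 200) hη0.le (by positivity) (by positivity) hmain
    (fun n => GS Sk.c0 η X n) (fun n => measurableSet_GS hEq n) (fun n z hz => hz.1)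
    (fun n z hz => hz.2.2.2) ?_
  · have e : l / 200 / 2 = l / 400 := by ring
    rwa [e] at this
  · refine Filter.Eventually.frequently ?_
    filter_upwards [eventually_ge_atTop 3] with n hn
    refine ⟨mass_GS hc0 hη0 hEq hmass hsm (by omega), ?_⟩
    exact sep_main hk200 hs hL (hG k hk1) hN40 hbB hn

end Vale.Agent.P108.H954
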